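import Vale.Agent.Lib.P126.Defs

namespace Vale.Agent.Lib.P126

section cov

variable {E : Type*} [AddCommGroup E]

lemma covNum_le {A B : Set E} {T : Finset E} (h : ∀ y ∈ A, ∃ x ∈ T, y - x ∈ B) :
    covNum A B ≤ T.card :=
  Nat.sInf_le ⟨T, rfl, h⟩

lemma exists_cover_card_eq {A B : Set E}
    (h : ∃ T : Finset E, ∀ y ∈ A, ∃ x ∈ T, y - x ∈ B) :
    ∃ T : Finset E, T.card = covNum A B ∧ ∀ y ∈ A, ∃ x ∈ T, y - x ∈ B := by
  have hne : {m : ℕ | ∃ T : Finset E, T.card = m ∧ ∀ y ∈ A, ∃ x ∈ T, y - x ∈ B}.Nonempty := by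
    obtain ⟨T, hT⟩ := h
    exact ⟨T.card, T, rfl, hT⟩
  exact Nat.sInf_mem hne

lemma covNum_pos {A B : Set E} (hA : A.Nonempty)
    (h : ∃ T : Finset E, ∀ y ∈ A, ∃ x ∈ T, y - x ∈ B) : 1 ≤ covNum A B := by
  obtain ⟨T, hT, hc⟩ := exists_cover_card_eq h
  obtain ⟨y, hy⟩ := hA
  obtain ⟨x, hx, _⟩ := hc y hy
  rw [← hT]
  exact Finset.card_pos.mpr ⟨x, hx⟩

/-- Greedy separated sets: for every `m ≤ N(A,B)` there is a `B`-separated subset of `A`
of cardinality `m`. -/
lemma exists_separated {A B : Set E} (h0 : (0 : E) ∈ B) (hB : ∀ x ∈ B, -x ∈ B) (m : ℕ)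
    (hm : m ≤ covNum A B) :
    ∃ S : Finset E, S.card = m ∧ (∀ x ∈ S, x ∈ A) ∧ ∀ x ∈ S, ∀ y ∈ S, x ≠ y → x - y ∉ B := by
  classical
  induction m with
  | zero => exact ⟨∅, rfl, by simp, by simp⟩
  | succ m ih =>
    obtain ⟨S, hcard, hSA, hsep⟩ := ih (by omega)
    have hnot : ¬ ∀ y ∈ A, ∃ x ∈ S, y - x ∈ B := by
      intro hc
      have := covNum_le hc
      omega
    push Not at hnot
    obtain ⟨y, hyA, hy⟩ := hnot
    have hyS : y ∉ S := by
      intro hyS
      exact hy y hyS (by simpa using h0)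
    refine ⟨insert y S, by rw [Finset.card_insert_of_notMem hyS, hcard], ?_, ?_⟩
    · intro x hx
      rcases Finset.mem_insert.mp hx with rfl | hx
      · exact hyA
      · exact hSA x hx
    · intro x hx z hz hxz
      rcases Finset.mem_insert.mp hx with hxy | hxS
      · rcases Finset.mem_insert.mp hz with hzy | hzS
        · exact absurd (hxy.trans hzy.symm) hxz
        · rw [hxy]
          exact hy z hzS
      · rcases Finset.mem_insert.mp hz with hzy | hzS
        · intro hmem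
          have := hB _ hmem
          rw [neg_sub, hzy] at this
          exact hy x hxS this
        · exact hsep x hxS z hzS hxz

/-- Packing bound: a `D`-separated subset of `A` has at most as many points as any cover of `A`
by translates of `B`, provided `B - B ⊆ D`. -/
lemma card_le_of_separated {A B D : Set E} (hBD : ∀ x ∈ B, ∀ y ∈ B, x - y ∈ D) {S T : Finset E}
    (hS : ∀ x ∈ S, x ∈ A) (hsep : ∀ x ∈ S, ∀ y ∈ S, x ≠ y → x - y ∉ D)
    (hT : ∀ y ∈ A, ∃ x ∈ T, y - x ∈ B) : S.card ≤ T.card := by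
  classical
  have h1 : ∀ s ∈ S, ∃ x ∈ T, s - x ∈ B := fun s hs => hT s (hS s hs)
  choose! f hfT hfB using h1
  refine Finset.card_le_card_of_injOn f (fun s hs => hfT s hs) ?_
  intro s hs s' hs' hss'
  by_contra hne
  apply hsep s hs s' hs' hne
  have h2 := hBD _ (hfB s hs) _ (hfB s' hs')
  rw [hss'] at h2
  simpa using h2

lemma card_le_covNum_of_separated {A B D : Set E} (hBD : ∀ x ∈ B, ∀ y ∈ B, x - y ∈ D)
    {S : Finset E} (hS : ∀ x ∈ S, x ∈ A) (hsep : ∀ x ∈ S, ∀ y ∈ S, x ≠ y → x - y ∉ D)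
    (h : ∃ T : Finset E, ∀ y ∈ A, ∃ x ∈ T, y - x ∈ B) : S.card ≤ covNum A B := by
  obtain ⟨T, hT, hc⟩ := exists_cover_card_eq h
  rw [← hT]
  exact card_le_of_separated hBD hS hsep hc

end cov

end Vale.Agent.Lib.P126
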