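import Mathlib

namespace Vale.Agent.Lib.P126

open Finset

lemma factor_bound (M : ℕ) (hM : 1 ≤ M) :
    (M : ℝ) * Real.exp (-2 * Real.log M) + (1 - Real.exp (-2 * Real.log M))
      ≤ Real.exp (Real.log M / 2) := by
  have hMpos : (0:ℝ) < M := by exact_mod_cast hM
  have hw : Real.exp (-2 * Real.log M) = ((M:ℝ)^2)⁻¹ := by
    rw [show -2 * Real.log M = -(Real.log ((M:ℝ)^2)) by rw [Real.log_pow]; push_cast; ring,
      Real.exp_neg, Real.exp_log (by positivity)]
  have hr : Real.exp (Real.log M / 2) ^ 2 = M := by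
    rw [← Real.exp_nat_mul]
    push_cast
    rw [show 2 * (Real.log M / 2) = Real.log M by ring, Real.exp_log hMpos]
  rw [hw]
  set r := Real.exp (Real.log M / 2) with hrdef
  have hrpos : 0 < r := Real.exp_pos _
  rcases Nat.lt_or_ge M 2 with h | h
  · have h1 : M = 1 := by omega
    subst h1
    simp only [Nat.cast_one] at hr ⊢
    have : r = 1 := by nlinarith
    rw [this]; norm_num
  · have hM2 : (2:ℝ) ≤ M := by exact_mod_cast h
    have h1 : (M:ℝ) * ((M:ℝ)^2)⁻¹ + (1 - ((M:ℝ)^2)⁻¹) ≤ 5/4 := by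
      have hM2pos : (0:ℝ) < (M:ℝ)^2 := by positivity
      have e : (M:ℝ) * ((M:ℝ)^2)⁻¹ + (1 - ((M:ℝ)^2)⁻¹) = ((M:ℝ) + (M:ℝ)^2 - 1) / (M:ℝ)^2 := by
        field_simp
        ring
      rw [e, div_le_iff₀ hM2pos]
      nlinarith [sq_nonneg ((M:ℝ) - 2)]
    have h2 : (5/4 : ℝ) ≤ r := by nlinarith
    linarith

section code

variable {ι : Type*} [Fintype ι] [DecidableEq ι] {α : ι → Type*} [∀ i, DecidableEq (α i)]

/-- The set of coordinates where two tuples differ. -/
def diffSet (c c' : ∀ i, α i) : Finset ι := univ.filter (fun i => c i ≠ c' i)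

omit [DecidableEq ι] in
lemma diffSet_comm (c c' : ∀ i, α i) : diffSet c c' = diffSet c' c := by
  unfold diffSet
  ext i
  simp [ne_comm]

omit [DecidableEq ι] in
lemma diffSet_self (c : ∀ i, α i) : diffSet c c = ∅ := by
  simp [diffSet]

lemma ball_card_le (S : ∀ i, Finset (α i)) (hS : ∀ i, (S i).Nonempty) (c0 : ∀ i, α i)
    (hc0 : c0 ∈ Fintype.piFinset S) :
    (((Fintype.piFinset S).filter (fun c => ∑ i ∈ diffSet c c0, Real.log (S i).card
        ≤ (∑ i, Real.log (S i).card) / 8)).card : ℝ)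
      ≤ Real.exp (3 * (∑ i, Real.log (S i).card) / 4) := by
  set ℓ : ι → ℝ := fun i => Real.log (S i).card with hℓ
  set Λ : ℝ := ∑ i, ℓ i with hΛ
  set g : ∀ i, α i → ℝ := fun i s => if s ≠ c0 i then Real.exp (-2 * ℓ i) else 1 with hg
  have hprod : ∀ c : ∀ i, α i, ∏ i, g i (c i) = Real.exp (-2 * ∑ i ∈ diffSet c c0, ℓ i) := by
    intro c
    rw [Finset.mul_sum, Real.exp_sum]
    unfold diffSet
    rw [Finset.prod_filter]
  have hcard : (((Fintype.piFinset S).filter (fun c => ∑ i ∈ diffSet c c0, ℓ i ≤ Λ / 8)).card : ℝ)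
      = ∑ c ∈ Fintype.piFinset S, (if ∑ i ∈ diffSet c c0, ℓ i ≤ Λ / 8 then (1:ℝ) else 0) := by
    rw [Finset.card_filter]
    push_cast
    rfl
  rw [hcard]
  calc ∑ c ∈ Fintype.piFinset S, (if ∑ i ∈ diffSet c c0, ℓ i ≤ Λ / 8 then (1:ℝ) else 0)
      ≤ ∑ c ∈ Fintype.piFinset S, Real.exp (Λ / 4) * ∏ i, g i (c i) := by
        apply Finset.sum_le_sum
        intro c _
        rw [hprod c, ← Real.exp_add]
        split_ifs with h
        · apply Real.one_le_exp
          linarith
        · exact (Real.exp_pos _).le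
    _ = Real.exp (Λ / 4) * ∏ i, ∑ s ∈ S i, g i s := by
        rw [← Finset.mul_sum, Finset.prod_univ_sum]
    _ ≤ Real.exp (Λ / 4) * ∏ i, Real.exp (ℓ i / 2) := by
        apply mul_le_mul_of_nonneg_left _ (Real.exp_pos _).le
        apply Finset.prod_le_prod
        · intro i _
          apply Finset.sum_nonneg
          intro s _
          simp only [hg]
          split_ifs
          · exact (Real.exp_pos _).le
          · exact zero_le_one
        · intro i _
          have hc0i : c0 i ∈ S i := (Fintype.mem_piFinset.mp hc0) i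
          have e : ∑ s ∈ S i, g i s = ((S i).card : ℝ) * Real.exp (-2 * ℓ i)
              + (1 - Real.exp (-2 * ℓ i)) := by
            have e1 : ∀ s ∈ S i, g i s = Real.exp (-2 * ℓ i)
                + (if s = c0 i then (1 - Real.exp (-2 * ℓ i)) else 0) := by
              intro s _
              simp only [hg]
              by_cases hs : s = c0 i
              · simp [hs]
              · simp [hs]
            rw [Finset.sum_congr rfl e1, Finset.sum_add_distrib, Finset.sum_const,
              Finset.sum_ite_eq' (S i) (c0 i), if_pos hc0i, nsmul_eq_mul]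
          rw [e]
          exact factor_bound (S i).card (Finset.card_pos.mpr (hS i))
    _ = Real.exp (3 * Λ / 4) := by
        rw [← Real.exp_sum, ← Real.exp_add]
        congr 1
        rw [← Finset.sum_div]
        ring

/-- A Gilbert-Varshamov type code in a product of finite sets, for the weighted Hamming
distance with weights `log |S i|`. -/
lemma exists_code (S : ∀ i, Finset (α i)) (hS : ∀ i, (S i).Nonempty) :
    ∃ C : Finset (∀ i, α i), C ⊆ Fintype.piFinset S ∧
      (∏ i, ((S i).card : ℝ)) ≤ (C.card : ℝ) ^ 4 ∧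
      ∀ c ∈ C, ∀ c' ∈ C, c ≠ c' →
        (∑ i, Real.log (S i).card) / 8 < ∑ i ∈ diffSet c c', Real.log (S i).card := by
  classical
  set P := Fintype.piFinset S with hPdef
  set ℓ : ι → ℝ := fun i => Real.log (S i).card with hℓ
  set Λ : ℝ := ∑ i, ℓ i with hΛdef
  let good : Finset (∀ i, α i) → Prop := fun C =>
    ∀ c ∈ C, ∀ c' ∈ C, c ≠ c' → Λ / 8 < ∑ i ∈ diffSet c c', ℓ i
  have hne : (P.powerset.filter good).Nonempty := ⟨∅, by simp [good]⟩
  obtain ⟨C, hC, hmax⟩ := Finset.exists_max_image _ Finset.card hne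
  have hCsub : C ⊆ P := Finset.mem_powerset.mp (Finset.mem_filter.mp hC).1
  have hCgood : good C := (Finset.mem_filter.mp hC).2
  have hΛ : 0 ≤ Λ := Finset.sum_nonneg (fun i _ => Real.log_natCast_nonneg _)
  have hcover : ∀ c ∈ P, ∃ c0 ∈ C, ∑ i ∈ diffSet c c0, ℓ i ≤ Λ / 8 := by
    intro c hc
    by_contra hcon
    push Not at hcon
    have hcC : c ∉ C := by
      intro h
      have := hcon c h
      rw [diffSet_self] at this
      simp at this
      linarith
    have hgood' : good (insert c C) := by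
      intro x hx y hy hxy
      rcases Finset.mem_insert.mp hx with hxc | hxC
      · rcases Finset.mem_insert.mp hy with hyc | hyC
        · exact absurd (hxc.trans hyc.symm) hxy
        · rw [hxc]
          exact hcon y hyC
      · rcases Finset.mem_insert.mp hy with hyc | hyC
        · rw [hyc, diffSet_comm]
          exact hcon x hxC
        · exact hCgood x hxC y hyC hxy
    have hmem : insert c C ∈ P.powerset.filter good := by
      refine Finset.mem_filter.mpr ⟨Finset.mem_powerset.mpr ?_, hgood'⟩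
      exact Finset.insert_subset hc hCsub
    have := hmax (insert c C) hmem
    rw [Finset.card_insert_of_notMem hcC] at this
    omega
  have hP : (P.card : ℝ) ≤ C.card * Real.exp (3 * Λ / 4) := by
    have hsub : P ⊆ C.biUnion (fun c0 => P.filter (fun c => ∑ i ∈ diffSet c c0, ℓ i ≤ Λ / 8)) := by
      intro c hc
      obtain ⟨c0, hc0, hcl⟩ := hcover c hc
      exact Finset.mem_biUnion.mpr ⟨c0, hc0, Finset.mem_filter.mpr ⟨hc, hcl⟩⟩
    calc (P.card : ℝ)
        ≤ ((C.biUnion (fun c0 => P.filter (fun c => ∑ i ∈ diffSet c c0, ℓ i ≤ Λ / 8))).card : ℝ) := by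
          exact_mod_cast Finset.card_le_card hsub
      _ ≤ ∑ c0 ∈ C, ((P.filter (fun c => ∑ i ∈ diffSet c c0, ℓ i ≤ Λ / 8)).card : ℝ) := by
          exact_mod_cast Finset.card_biUnion_le
      _ ≤ ∑ c0 ∈ C, Real.exp (3 * Λ / 4) :=
          Finset.sum_le_sum (fun c0 h => ball_card_le S hS c0 (hCsub h))
      _ = C.card * Real.exp (3 * Λ / 4) := by simp
  have hprodexp : ∏ i, ((S i).card : ℝ) = Real.exp Λ := by
    rw [hΛdef, Real.exp_sum]
    apply Finset.prod_congr rfl
    intro i _
    rw [hℓ, Real.exp_log]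
    exact_mod_cast Finset.card_pos.mpr (hS i)
  have hPcard : (P.card : ℝ) = Real.exp Λ := by
    rw [hPdef, Fintype.card_piFinset]
    push_cast
    exact hprodexp
  have h4 : Real.exp (Λ / 4) ≤ C.card := by
    have e : Real.exp Λ = Real.exp (Λ / 4) * Real.exp (3 * Λ / 4) := by
      rw [← Real.exp_add]
      ring_nf
    rw [hPcard, e] at hP
    exact le_of_mul_le_mul_right hP (Real.exp_pos _)
  refine ⟨C, hCsub, ?_, hCgood⟩
  calc ∏ i, ((S i).card : ℝ) = Real.exp Λ := hprodexp
    _ = Real.exp (Λ / 4) ^ 4 := by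
        rw [← Real.exp_nat_mul]
        ring_nf
    _ ≤ (C.card : ℝ) ^ 4 := by
        gcongr

end code

end Vale.Agent.Lib.P126
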