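import Mathlib

namespace Vale.Agent.Lib.P126

/-- The covering number `N(A,B)`: the least number of translates `x + B` (with `x` arbitrary)
whose union contains `A`. -/
noncomputable def covNum {E : Type*} [AddCommGroup E] (A B : Set E) : ℕ :=
  sInf {m : ℕ | ∃ T : Finset E, T.card = m ∧ ∀ y ∈ A, ∃ x ∈ T, y - x ∈ B}

/-- The polar set `K° = {y : <x,y> ≤ 1 for all x ∈ K}`. -/
def polarSet {E : Type*} [NormedAddCommGroup E] [InnerProductSpace ℝ E] (K : Set E) : Set E :=
  {y | ∀ x ∈ K, inner ℝ x y ≤ 1}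

/-- Origin-symmetric convex bodies: compact, convex, nonempty interior, `K = -K`. -/
def IsSymmBody {E : Type*} [NormedAddCommGroup E] [InnerProductSpace ℝ E] (K : Set E) : Prop :=
  IsCompact K ∧ Convex ℝ K ∧ (interior K).Nonempty ∧ ∀ x ∈ K, -x ∈ K

/-- The product body `K_1 × ... × K_m` inside the orthogonal direct sum of the spaces `E i`. -/
def prodBody {ι : Type*} [Fintype ι] {E : ι → Type*} [∀ i, NormedAddCommGroup (E i)]
    [∀ i, InnerProductSpace ℝ (E i)] (K : ∀ i, Set (E i)) : Set (PiLp 2 E) :=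
  {x | ∀ i, x i ∈ K i}

end Vale.Agent.Lib.P126
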