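import Vale.Agent.Lib.P126.Defs

namespace Vale.Agent.Lib.P126

open Metric
open scoped Pointwise

/-- `K` is `d`-round: `r • B ⊆ K ⊆ d • (r • B)` for some `r > 0`, where `B` is the closed
Euclidean unit ball -/
def IsRound {E : Type*} [NormedAddCommGroup E] [InnerProductSpace ℝ E] (d : ℝ) (K : Set E) :
    Prop :=
  ∃ r : ℝ, 0 < r ∧ r • closedBall (0 : E) 1 ⊆ K ∧ K ⊆ d • (r • closedBall (0 : E) 1)

/-- `L` is `d`-ellipsoidal: `S(B) ⊆ L ⊆ d • S(B)` for some invertible linear map `S` that is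
symmetric for the inner product, where `B` is the closed Euclidean unit ball (so `S(B)` is a
centred ellipsoid) -/
def IsEllipsoidal {E : Type*} [NormedAddCommGroup E] [InnerProductSpace ℝ E] (d : ℝ)
    (L : Set E) : Prop :=
  ∃ S : E ≃L[ℝ] E, (∀ x y, inner ℝ (S x) y = inner ℝ x (S y)) ∧
    S '' closedBall (0 : E) 1 ⊆ L ∧ L ⊆ d • (S '' closedBall (0 : E) 1)

end Vale.Agent.Lib.P126
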