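import Vale.Agent.Lib.P126.Homothetic
import Vale.Agent.Lib.P126.EllDefs

/-!
P126: exact duality of covering numbers for the pair (Euclidean ball, ellipsoid), its stability
under sandwiching both bodies, and, through the product stability theorem, the duality
inequalities for products of pairs (nearly round body, nearly ellipsoidal body).
-/

namespace Vale.Agent.Lib.P126

open Topology Metric
open scoped Pointwise

section ell

variable {E : Type*} [NormedAddCommGroup E] [InnerProductSpace ℝ E] [FiniteDimensional ℝ E]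

omit [FiniteDimensional ℝ E] in
/-- covering numbers are invariant under continuous linear equivalences -/
lemma covNum_image_equiv (S : E ≃L[ℝ] E) (A C : Set E) :
    covNum (S '' A) (S '' C) = covNum A C := by
  have key : ∀ (S : E ≃L[ℝ] E) (A C : Set E) (m : ℕ),
      (∃ T : Finset E, T.card = m ∧ ∀ y ∈ A, ∃ x ∈ T, y - x ∈ C) →
      ∃ T : Finset E, T.card = m ∧ ∀ y ∈ S '' A, ∃ x ∈ T, y - x ∈ S '' C := by
    classical
    rintro S A C m ⟨T, hT, hcov⟩
    refine ⟨T.image S, by rw [Finset.card_image_of_injective _ S.injective, hT], ?_⟩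
    rintro _ ⟨y, hy, rfl⟩
    obtain ⟨x, hx, hxy⟩ := hcov y hy
    exact ⟨S x, Finset.mem_image_of_mem _ hx, ⟨y - x, hxy, by rw [map_sub]⟩⟩
  have e1 : S.symm '' (S '' A) = A := by
    rw [Set.image_image]
    simp
  have e2 : S.symm '' (S '' C) = C := by
    rw [Set.image_image]
    simp
  unfold covNum
  congr 1
  ext m
  constructor
  · intro h
    have h1 := key S.symm (S '' A) (S '' C) m h
    rwa [e1, e2] at h1
  · exact key S A C m

omit [FiniteDimensional ℝ E] in
lemma polarSet_closedBall_one : polarSet (closedBall (0 : E) 1) = closedBall (0 : E) 1 := by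
  ext y
  constructor
  · intro h
    rw [mem_closedBall, dist_zero_right]
    by_cases hy : y = 0
    · rw [hy, norm_zero]
      exact zero_le_one
    · have hpos : 0 < ‖y‖ := norm_pos_iff.mpr hy
      have hmem : (1 / ‖y‖) • y ∈ closedBall (0 : E) 1 := by
        rw [mem_closedBall, dist_zero_right, norm_smul, norm_div, norm_one, norm_norm, one_div,
          inv_mul_cancel₀ hpos.ne']
      have h1 := h _ hmem
      rw [real_inner_smul_left, real_inner_self_eq_norm_sq] at h1
      have e : 1 / ‖y‖ * ‖y‖ ^ 2 = ‖y‖ := by field_simp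
      rwa [e] at h1
  · intro hy x hx
    rw [mem_closedBall, dist_zero_right] at hy hx
    calc inner ℝ x y ≤ ‖x‖ * ‖y‖ := real_inner_le_norm x y
      _ ≤ 1 * 1 := mul_le_mul hx hy (norm_nonneg _) zero_le_one
      _ = 1 := one_mul 1

omit [FiniteDimensional ℝ E] in
/-- the polar of the ellipsoid `S(B)`, `S` symmetric and invertible, is `S⁻¹(B)` -/
lemma polarSet_image_ball (S : E ≃L[ℝ] E) (hS : ∀ x y, inner ℝ (S x) y = inner ℝ x (S y)) :
    polarSet (S '' closedBall (0 : E) 1) = S.symm '' closedBall (0 : E) 1 := by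
  ext y
  constructor
  · intro hy
    refine ⟨S y, ?_, S.symm_apply_apply y⟩
    rw [← polarSet_closedBall_one]
    intro x hx
    rw [← hS]
    exact hy (S x) ⟨x, hx, rfl⟩
  · rintro ⟨z, hz, rfl⟩ _ ⟨x, hx, rfl⟩
    rw [hS, S.apply_symm_apply]
    rw [← polarSet_closedBall_one] at hz
    exact hz x hx

lemma isSymmBody_closedBall : IsSymmBody (closedBall (0 : E) 1) :=
  ⟨isCompact_closedBall 0 1, convex_closedBall 0 1,
    ⟨0, by rw [interior_closedBall _ one_ne_zero]; exact mem_ball_self one_pos⟩,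
    fun x hx => by simpa using hx⟩

lemma isSymmBody_image_ball (S : E ≃L[ℝ] E) : IsSymmBody (S '' closedBall (0 : E) 1) := by
  refine ⟨(isCompact_closedBall 0 1).image S.continuous,
    (convex_closedBall (0 : E) 1).linear_image S.toLinearEquiv.toLinearMap, ⟨0, ?_⟩, ?_⟩
  · rw [mem_interior_iff_mem_nhds]
    have h := S.toHomeomorph.isOpenMap.image_mem_nhds (closedBall_mem_nhds (0 : E) one_pos)
    have e : S.toHomeomorph (0 : E) = 0 := map_zero S
    rw [e] at h
    exact h
  · rintro _ ⟨x, hx, rfl⟩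
    exact ⟨-x, by simpa using hx, map_neg S x⟩

omit [FiniteDimensional ℝ E] in
/-- exact duality for the pair (ball, ellipsoid) at all scales -/
lemma covNum_ball_ell (S : E ≃L[ℝ] E) (hS : ∀ x y, inner ℝ (S x) y = inner ℝ x (S y))
    {ρ t : ℝ} (hρ : 0 < ρ) (ht : 0 < t) :
    covNum (polarSet (t • (S '' closedBall (0 : E) 1))) (polarSet (ρ • closedBall (0 : E) 1))
      = covNum (ρ • closedBall (0 : E) 1) (t • (S '' closedBall (0 : E) 1)) := by
  rw [polarSet_smul _ ht, polarSet_smul _ hρ, polarSet_image_ball S hS, polarSet_closedBall_one,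
    ← covNum_smul (t⁻¹ • S.symm '' closedBall (0 : E) 1) (ρ⁻¹ • closedBall (0 : E) 1)
      (mul_pos ht hρ).ne', smul_smul, smul_smul,
    show t * ρ * t⁻¹ = ρ by field_simp, show t * ρ * ρ⁻¹ = t by field_simp,
    ← covNum_image_equiv S (ρ • S.symm '' closedBall (0 : E) 1) (t • closedBall (0 : E) 1),
    image_smul_set, image_smul_set]
  have e : S '' (S.symm '' closedBall (0 : E) 1) = closedBall (0 : E) 1 := by
    rw [Set.image_image]
    simp
  rw [e]

end ell

section sandwich2

variable {E : Type*} [NormedAddCommGroup E] [InnerProductSpace ℝ E] [FiniteDimensional ℝ E]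

/-- if `(K₀, L₀)` satisfies exact duality at all scales, then the pairs `(K, L)` with
`K₀ ⊆ K ⊆ d K₀` and `L₀ ⊆ L ⊆ d L₀` satisfy the duality inequalities with `a = d ^ 2`,
`b = 1` -/
theorem duality_of_exact {K₀ L₀ K L : Set E} (hK₀ : IsSymmBody K₀) (hL₀ : IsSymmBody L₀)
    (hK : IsSymmBody K) (hL : IsSymmBody L)
    (hex : ∀ ρ t : ℝ, 0 < ρ → 0 < t →
      covNum (polarSet (t • L₀)) (polarSet (ρ • K₀)) = covNum (ρ • K₀) (t • L₀))
    {d : ℝ} (hd : 1 ≤ d) (hK1 : K₀ ⊆ K) (hK2 : K ⊆ d • K₀) (hL1 : L₀ ⊆ L) (hL2 : L ⊆ d • L₀)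
    (t : ℝ) (ht : 0 < t) :
    (1 / (1 : ℝ)) * Real.log (covNum (polarSet (t • L)) ((d ^ 2) • polarSet K))
        ≤ Real.log (covNum K (t • L)) ∧
      Real.log (covNum K (t • L))
        ≤ (1 : ℝ) * Real.log (covNum (polarSet (t • L)) ((d ^ 2)⁻¹ • polarSet K)) := by
  have hd0 : 0 < d := lt_of_lt_of_le one_pos hd
  have hdi : 0 < d⁻¹ := inv_pos.mpr hd0
  have hLt : IsSymmBody (t • L) := hL.smul ht
  have hL₀t : IsSymmBody (t • L₀) := hL₀.smul ht
  have cov3 : ∀ {M N : Set E} {r : ℝ}, IsSymmBody M → IsSymmBody N → 0 < r →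
      ∃ T : Finset E, ∀ y ∈ polarSet M, ∃ x ∈ T, y - x ∈ r • polarSet N :=
    fun hM hN hr => exists_cover (isCompact_polarSet hM.mem_nhds)
      (smul_polarSet_mem_nhds hN.1.isBounded hr)
  have cov4 : ∀ {M N : Set E}, IsSymmBody M → IsSymmBody N →
      ∃ T : Finset E, ∀ y ∈ M, ∃ x ∈ T, y - x ∈ N :=
    fun hM hN => exists_cover hM.1 hN.mem_nhds
  have incL : t • L ⊆ (d * t) • L₀ := by
    have := Set.smul_set_mono (a := t) hL2
    rwa [smul_smul, mul_comm t d] at this
  rw [div_one, one_mul, one_mul]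
  constructor
  · have s1 : covNum (polarSet (t • L)) ((d ^ 2) • polarSet K)
        ≤ covNum (polarSet (t • L₀)) ((d ^ 2) • polarSet K) :=
      covNum_mono_left (polarSet_anti (Set.smul_set_mono hL1)) (cov3 hL₀t hK (by positivity))
    have inc2 : polarSet (d⁻¹ • K₀) ⊆ (d ^ 2) • polarSet K := by
      rw [polarSet_smul K₀ hdi, inv_inv]
      have h1 : polarSet (d • K₀) ⊆ polarSet K := polarSet_anti hK2
      rw [polarSet_smul K₀ hd0] at h1
      have h2 := Set.smul_set_mono (a := d ^ 2) h1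
      rw [smul_smul] at h2
      rwa [show d ^ 2 * d⁻¹ = d by field_simp] at h2
    have s2 : covNum (polarSet (t • L₀)) ((d ^ 2) • polarSet K)
        ≤ covNum (polarSet (t • L₀)) (polarSet (d⁻¹ • K₀)) := by
      apply covNum_mono_right inc2
      rw [polarSet_smul K₀ hdi]
      exact cov3 hL₀t hK₀ (by positivity)
    have s3 : covNum (polarSet (t • L₀)) (polarSet (d⁻¹ • K₀)) = covNum (d⁻¹ • K₀) (t • L₀) :=
      hex d⁻¹ t hdi ht
    have s4 : covNum (d⁻¹ • K₀) (t • L₀) = covNum K₀ ((d * t) • L₀) := by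
      rw [← covNum_smul (d⁻¹ • K₀) (t • L₀) hd0.ne', smul_smul, smul_smul,
        mul_inv_cancel₀ hd0.ne', one_smul]
    have s5 : covNum K₀ ((d * t) • L₀) ≤ covNum K ((d * t) • L₀) :=
      covNum_mono_left hK1 (cov4 hK (hL₀.smul (by positivity)))
    have s6 : covNum K ((d * t) • L₀) ≤ covNum K (t • L) := covNum_mono_right incL (cov4 hK hLt)
    have hpos : 1 ≤ covNum (polarSet (t • L)) ((d ^ 2) • polarSet K) :=
      covNum_pos ⟨0, zero_mem_polarSet _⟩ (cov3 hLt hK (by positivity))
    apply Real.log_le_log (by exact_mod_cast hpos)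
    have : covNum (polarSet (t • L)) ((d ^ 2) • polarSet K) ≤ covNum K (t • L) := by
      calc covNum (polarSet (t • L)) ((d ^ 2) • polarSet K)
          ≤ covNum (polarSet (t • L₀)) ((d ^ 2) • polarSet K) := s1
        _ ≤ covNum (polarSet (t • L₀)) (polarSet (d⁻¹ • K₀)) := s2
        _ = covNum (d⁻¹ • K₀) (t • L₀) := s3
        _ = covNum K₀ ((d * t) • L₀) := s4
        _ ≤ covNum K ((d * t) • L₀) := s5
        _ ≤ covNum K (t • L) := s6
    exact_mod_cast this
  · have r1 : covNum K (t • L) ≤ covNum (d • K₀) (t • L) :=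
      covNum_mono_left hK2 (cov4 (hK₀.smul hd0) hLt)
    have r2 : covNum (d • K₀) (t • L) ≤ covNum (d • K₀) (t • L₀) :=
      covNum_mono_right (Set.smul_set_mono hL1) (cov4 (hK₀.smul hd0) hL₀t)
    have r3 : covNum (d • K₀) (t • L₀) = covNum (polarSet (t • L₀)) (polarSet (d • K₀)) :=
      (hex d t hd0 ht).symm
    have inc4 : polarSet (t • L₀) ⊆ d • polarSet (t • L) := by
      have h1 : polarSet ((d * t) • L₀) ⊆ polarSet (t • L) := polarSet_anti incL
      rw [← smul_smul, polarSet_smul (t • L₀) hd0] at h1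
      have h2 := Set.smul_set_mono (a := d) h1
      rwa [smul_smul, mul_inv_cancel₀ hd0.ne', one_smul] at h2
    have inc5 : d⁻¹ • polarSet K ⊆ polarSet (d • K₀) := by
      rw [polarSet_smul K₀ hd0]
      exact Set.smul_set_mono (polarSet_anti hK1)
    have hcomp : IsCompact (d • polarSet (t • L)) := (isCompact_polarSet hLt.mem_nhds).smul d
    have r4 : covNum (polarSet (t • L₀)) (polarSet (d • K₀))
        ≤ covNum (d • polarSet (t • L)) (polarSet (d • K₀)) := by
      apply covNum_mono_left inc4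
      rw [polarSet_smul K₀ hd0]
      exact exists_cover hcomp (smul_polarSet_mem_nhds hK₀.1.isBounded hdi)
    have r5 : covNum (d • polarSet (t • L)) (polarSet (d • K₀))
        ≤ covNum (d • polarSet (t • L)) (d⁻¹ • polarSet K) :=
      covNum_mono_right inc5 (exists_cover hcomp (smul_polarSet_mem_nhds hK.1.isBounded hdi))
    have r6 : covNum (d • polarSet (t • L)) (d⁻¹ • polarSet K)
        = covNum (polarSet (t • L)) ((d ^ 2)⁻¹ • polarSet K) := by
      rw [← covNum_smul (polarSet (t • L)) ((d ^ 2)⁻¹ • polarSet K) hd0.ne', smul_smul,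
        show d * (d ^ 2)⁻¹ = d⁻¹ by field_simp]
    have hpos : 1 ≤ covNum K (t • L) := covNum_pos ⟨0, hK.zero_mem⟩ (cov4 hK hLt)
    apply Real.log_le_log (by exact_mod_cast hpos)
    have : covNum K (t • L) ≤ covNum (polarSet (t • L)) ((d ^ 2)⁻¹ • polarSet K) := by
      calc covNum K (t • L) ≤ covNum (d • K₀) (t • L) := r1
        _ ≤ covNum (d • K₀) (t • L₀) := r2
        _ = covNum (polarSet (t • L₀)) (polarSet (d • K₀)) := r3
        _ ≤ covNum (d • polarSet (t • L)) (polarSet (d • K₀)) := r4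
        _ ≤ covNum (d • polarSet (t • L)) (d⁻¹ • polarSet K) := r5
        _ = covNum (polarSet (t • L)) ((d ^ 2)⁻¹ • polarSet K) := r6
    exact_mod_cast this

/-- pairs (nearly round body, nearly ellipsoidal body): `r B ⊆ K ⊆ d r B` and
`S(B) ⊆ L ⊆ d S(B)` with `S` symmetric and invertible, `B` the Euclidean unit ball -/
theorem duality_round (S : E ≃L[ℝ] E) (hS : ∀ x y, inner ℝ (S x) y = inner ℝ x (S y))
    {K L : Set E} (hK : IsSymmBody K) (hL : IsSymmBody L) {r d : ℝ} (hr : 0 < r) (hd : 1 ≤ d)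
    (hK1 : r • closedBall (0 : E) 1 ⊆ K) (hK2 : K ⊆ d • (r • closedBall (0 : E) 1))
    (hL1 : S '' closedBall (0 : E) 1 ⊆ L) (hL2 : L ⊆ d • (S '' closedBall (0 : E) 1))
    (t : ℝ) (ht : 0 < t) :
    (1 / (1 : ℝ)) * Real.log (covNum (polarSet (t • L)) ((d ^ 2) • polarSet K))
        ≤ Real.log (covNum K (t • L)) ∧
      Real.log (covNum K (t • L))
        ≤ (1 : ℝ) * Real.log (covNum (polarSet (t • L)) ((d ^ 2)⁻¹ • polarSet K)) := by
  apply duality_of_exact (isSymmBody_closedBall.smul hr) (isSymmBody_image_ball S) hK hL _ hd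
    hK1 hK2 hL1 hL2 t ht
  intro ρ t' hρ ht'
  rw [smul_smul]
  exact covNum_ball_ell S hS (mul_pos hρ hr) ht'

end sandwich2

/-- **Duality of metric entropy for products of (nearly round, nearly ellipsoidal) pairs.**
Let `K i`, `L i` be origin-symmetric convex bodies in `R^(n i)` such that every `K i` is
`d`-round and every `L i` is `d`-ellipsoidal, for one `d ≥ 1`.  Then the product bodies satisfy
the duality inequalities with `a = 16 d ^ 2`, `b = 5` at every scale. -/
theorem duality_round_block {ι : Type} [Fintype ι] (n : ι → ℕ)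
    (K L : ∀ i, Set (EuclideanSpace ℝ (Fin (n i)))) (hK : ∀ i, IsSymmBody (K i))
    (hL : ∀ i, IsSymmBody (L i)) (d : ℝ) (hd : 1 ≤ d)
    (hKr : ∀ i, IsRound d (K i)) (hLe : ∀ i, IsEllipsoidal d (L i)) :
    ∀ t : ℝ, 0 < t →
      (1 / 5) * Real.log (covNum (polarSet (t • prodBody L))
          ((16 * d ^ 2) • polarSet (prodBody K)))
        ≤ Real.log (covNum (prodBody K) (t • prodBody L)) ∧
      Real.log (covNum (prodBody K) (t • prodBody L))
        ≤ 5 * Real.log (covNum (polarSet (t • prodBody L))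
            ((16 * d ^ 2)⁻¹ • polarSet (prodBody K))) := by
  intro t ht
  have hd2 : (1 : ℝ) ≤ d ^ 2 := one_le_pow₀ hd
  have h := duality_prod K L hK hL (d ^ 2) 1 hd2 le_rfl
    (fun i t' ht' => by
      obtain ⟨r, hr, hK1, hK2⟩ := hKr i
      obtain ⟨S, hS, hL1, hL2⟩ := hLe i
      exact duality_round S hS (hK i) (hL i) hr hd hK1 hK2 hL1 hL2 t' ht') t ht
  rw [show (5 : ℝ) * 1 = 5 by norm_num] at h
  exact h

end Vale.Agent.Lib.P126
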