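import Vale.Agent.Lib.P126.Main

namespace Vale.Agent.Lib.P126

open scoped Pointwise Topology

lemma IsSymmBody.smul {F : Type*} [NormedAddCommGroup F] [InnerProductSpace ℝ F] {L : Set F}
    (hL : IsSymmBody L) {t : ℝ} (ht : 0 < t) : IsSymmBody (t • L) := by
  refine ⟨hL.1.smul t, hL.2.1.smul t, ⟨0, ?_⟩, ?_⟩
  · rw [mem_interior_iff_mem_nhds]
    exact (set_smul_mem_nhds_zero_iff ht.ne').mpr hL.mem_nhds
  · intro x hx
    obtain ⟨z, hz, hzx⟩ := Set.mem_smul_set.mp hx
    exact Set.mem_smul_set.mpr ⟨-z, hL.2.2.2 z hz, by rw [smul_neg, hzx]⟩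

section final

variable {ι : Type*} [Fintype ι] {E : ι → Type*} [∀ i, NormedAddCommGroup (E i)]
  [∀ i, InnerProductSpace ℝ (E i)] [∀ i, FiniteDimensional ℝ (E i)]

/-- Two-sided duality for the product pair at scale one. -/
theorem duality_prod_one (K L : ∀ i, Set (E i)) (hK : ∀ i, IsSymmBody (K i))
    (hL : ∀ i, IsSymmBody (L i)) (a b : ℝ) (ha : 1 ≤ a) (hb : 1 ≤ b)
    (hdual : ∀ i, ∀ t : ℝ, 0 < t →
      (1 / b) * Real.log (covNum (polarSet (t • L i)) (a • polarSet (K i)))
        ≤ Real.log (covNum (K i) (t • L i)) ∧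
      Real.log (covNum (K i) (t • L i))
        ≤ b * Real.log (covNum (polarSet (t • L i)) (a⁻¹ • polarSet (K i)))) :
    (1 / (5 * b)) * Real.log (covNum (polarSet (prodBody L))
          ((16 * a) • polarSet (prodBody K)))
        ≤ Real.log (covNum (prodBody K) (prodBody L)) ∧
      Real.log (covNum (prodBody K) (prodBody L))
        ≤ (5 * b) * Real.log (covNum (polarSet (prodBody L))
            ((16 * a)⁻¹ • polarSet (prodBody K))) := by
  have ha0 : 0 < a := lt_of_lt_of_le one_pos ha
  have hb0 : 0 < b := lt_of_lt_of_le one_pos hb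
  constructor
  · have h1 := left_ineq K L hK hL a b ha0 hb0 (fun i => (hdual i 2 two_pos).1)
    refine le_trans ?_ h1
    apply mul_le_mul_of_nonneg_left _ (by positivity)
    apply Real.log_le_log
    · have := covNum_polar_pos (prodBody_isSymmBody hK) (prodBody_isSymmBody hL)
        (by positivity : (0:ℝ) < 16 * a)
      exact_mod_cast this
    · have h2 : covNum (polarSet (prodBody L)) ((16 * a) • polarSet (prodBody K))
          ≤ covNum (polarSet (prodBody L)) ((4 * a) • polarSet (prodBody K)) := by
        apply covNum_mono_right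
        · intro y hy
          rw [mem_smul_polarSet (by positivity)] at hy ⊢
          intro x hx
          have := hy x hx
          linarith
        · exact exists_cover (isCompact_polarSet (prodBody_isSymmBody hL).mem_nhds)
            (smul_polarSet_mem_nhds (prodBody_isSymmBody hK).1.isBounded (by positivity))
      exact_mod_cast h2
  · have h1 := right_ineq K L hK hL a b ha0 hb0 (fun i => by
      have := (hdual i 1 one_pos).2
      simpa using this)
    refine le_trans h1 ?_
    have h2 : 0 ≤ Real.log (covNum (polarSet (prodBody L))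
        ((16 * a)⁻¹ • polarSet (prodBody K))) := Real.log_natCast_nonneg _
    nlinarith

/-- Two-sided duality for the product pair at every scale. -/
theorem duality_prod (K L : ∀ i, Set (E i)) (hK : ∀ i, IsSymmBody (K i))
    (hL : ∀ i, IsSymmBody (L i)) (a b : ℝ) (ha : 1 ≤ a) (hb : 1 ≤ b)
    (hdual : ∀ i, ∀ t : ℝ, 0 < t →
      (1 / b) * Real.log (covNum (polarSet (t • L i)) (a • polarSet (K i)))
        ≤ Real.log (covNum (K i) (t • L i)) ∧
      Real.log (covNum (K i) (t • L i))
        ≤ b * Real.log (covNum (polarSet (t • L i)) (a⁻¹ • polarSet (K i)))) :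
    ∀ t : ℝ, 0 < t →
      (1 / (5 * b)) * Real.log (covNum (polarSet (t • prodBody L))
          ((16 * a) • polarSet (prodBody K)))
        ≤ Real.log (covNum (prodBody K) (t • prodBody L)) ∧
      Real.log (covNum (prodBody K) (t • prodBody L))
        ≤ (5 * b) * Real.log (covNum (polarSet (t • prodBody L))
            ((16 * a)⁻¹ • polarSet (prodBody K))) := by
  intro t ht
  rw [smul_prodBody L ht]
  apply duality_prod_one K (fun i => t • L i) hK (fun i => (hL i).smul ht) a b ha hb
  intro i t' ht'
  have := hdual i (t' * t) (mul_pos ht' ht)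
  rw [smul_smul]
  exact this

end final

end Vale.Agent.Lib.P126
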