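import Vale.Agent.Lib.P126.Final

/-!
P126: the duality inequalities of metric entropy for homothetic pairs `(K, c K)` by the standard
volumetric estimates, and, through the product stability theorem, for block-diagonal pairs
`(K_1 x ... x K_m, c_1 K_1 x ... x c_m K_m)`.
-/

namespace Vale.Agent.Lib.P126

open MeasureTheory Topology
open scoped Pointwise

section vol

variable {E : Type*} [NormedAddCommGroup E] [InnerProductSpace ℝ E] [FiniteDimensional ℝ E]
  [MeasurableSpace E] [BorelSpace E]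

omit [MeasurableSpace E] [BorelSpace E] in
/-- the polar of an origin-symmetric convex body is an origin-symmetric convex body -/
lemma IsSymmBody.polar {K : Set E} (hK : IsSymmBody K) : IsSymmBody (polarSet K) := by
  refine ⟨isCompact_polarSet hK.mem_nhds, ?_, ?_, ?_⟩
  · intro y hy z hz a b ha hb hab x hx
    have h1 := hy x hx
    have h2 := hz x hx
    rw [inner_add_right, inner_smul_right, inner_smul_right]
    nlinarith
  · have h := smul_polarSet_mem_nhds hK.1.isBounded (s := 1) one_pos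
    rw [one_smul] at h
    exact ⟨0, mem_interior_iff_mem_nhds.mpr h⟩
  · intro y hy x hx
    have h := hy (-x) (hK.2.2.2 x hx)
    rw [inner_neg_left] at h
    rw [inner_neg_right]
    exact h

/-- volume lower bound: a cover of `C` by `N` translates of `u C` has `1 ≤ N u ^ n` -/
lemma one_le_covNum_mul_pow (μ : Measure E) [μ.IsAddHaarMeasure] {C : Set E}
    (hC : IsSymmBody C) {u : ℝ} (hu : 0 < u) :
    (1 : ℝ) ≤ (covNum C (u • C) : ℝ) * u ^ Module.finrank ℝ E := by
  have hcov : ∃ T : Finset E, ∀ y ∈ C, ∃ x ∈ T, y - x ∈ u • C :=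
    exists_cover hC.1 ((set_smul_mem_nhds_zero_iff hu.ne').mpr hC.mem_nhds)
  obtain ⟨T, hT, hc⟩ := exists_cover_card_eq hcov
  have hμpos : 0 < μ C := Measure.measure_pos_of_nonempty_interior μ hC.2.2.1
  have hμfin : μ C < ⊤ := hC.1.measure_lt_top
  have hsub : C ⊆ ⋃ x ∈ T, (fun y => y + -x) ⁻¹' (u • C) := by
    intro y hy
    obtain ⟨x, hx, hxy⟩ := hc y hy
    refine Set.mem_biUnion hx ?_
    rw [Set.mem_preimage, ← sub_eq_add_neg]
    exact hxy
  have h1 : μ C ≤ ∑ x ∈ T, μ ((fun y => y + -x) ⁻¹' (u • C)) :=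
    (measure_mono hsub).trans (measure_biUnion_finset_le T _)
  have h2 : ∀ x ∈ T, μ ((fun y => y + -x) ⁻¹' (u • C))
      = ENNReal.ofReal (u ^ Module.finrank ℝ E) * μ C := by
    intro x _
    rw [measure_preimage_add_right, Measure.addHaar_smul, abs_of_pos (pow_pos hu _)]
  rw [Finset.sum_congr rfl h2, Finset.sum_const, nsmul_eq_mul, hT] at h1
  have hfin : ((covNum C (u • C) : ℕ) : ENNReal) * (ENNReal.ofReal (u ^ Module.finrank ℝ E) * μ C)
      ≠ ⊤ :=
    ENNReal.mul_ne_top (ENNReal.natCast_ne_top _) (ENNReal.mul_ne_top ENNReal.ofReal_ne_top hμfin.ne)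
  have h3 := ENNReal.toReal_mono hfin h1
  rw [ENNReal.toReal_mul, ENNReal.toReal_mul, ENNReal.toReal_natCast,
    ENNReal.toReal_ofReal (pow_pos hu _).le] at h3
  have hpos : 0 < (μ C).toReal := ENNReal.toReal_pos hμpos.ne' hμfin.ne
  have h4 : 1 * (μ C).toReal
      ≤ ((covNum C (u • C) : ℝ) * u ^ Module.finrank ℝ E) * (μ C).toReal := by
    rw [one_mul, mul_assoc]
    exact h3
  exact le_of_mul_le_mul_right h4 hpos

/-- volume upper bound by packing: `N (v / 2) ^ n ≤ (1 + v / 2) ^ n` for `N = N(C, v C)` -/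
lemma covNum_mul_pow_le (μ : Measure E) [μ.IsAddHaarMeasure] {C : Set E} (hC : IsSymmBody C)
    {v : ℝ} (hv : 0 < v) :
    (covNum C (v • C) : ℝ) * (v / 2) ^ Module.finrank ℝ E
      ≤ (1 + v / 2) ^ Module.finrank ℝ E := by
  have h0 : (0 : E) ∈ v • C := ⟨0, hC.zero_mem, smul_zero v⟩
  have hsym : ∀ x ∈ v • C, -x ∈ v • C := (hC.smul hv).2.2.2
  obtain ⟨S, hcard, hSC, hsep⟩ := exists_separated h0 hsym (covNum C (v • C)) le_rfl
  have hv2 : 0 < v / 2 := by positivity
  have hBmeas : MeasurableSet ((v / 2) • C) := (hC.1.smul (v / 2)).isClosed.measurableSet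
  have hdisj : Set.PairwiseDisjoint (S : Set E) (fun x => (fun y => y + -x) ⁻¹' ((v / 2) • C)) := by
    intro x hx y hy hxy
    rw [Function.onFun, Set.disjoint_left]
    intro z hzx hzy
    apply hsep x hx y hy hxy
    obtain ⟨p, hp, hpz⟩ := hzx
    obtain ⟨q, hq, hqz⟩ := hzy
    have hpz' : (v / 2) • p = z + -x := hpz
    have hqz' : (v / 2) • q = z + -y := hqz
    refine ⟨(1 / 2 : ℝ) • q + (1 / 2 : ℝ) • (-p),
      hC.2.1 hq (hC.2.2.2 p hp) (by norm_num) (by norm_num) (by norm_num), ?_⟩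
    have e : x - y = (z + -y) - (z + -x) := by abel
    show v • ((1 / 2 : ℝ) • q + (1 / 2 : ℝ) • (-p)) = x - y
    rw [e, ← hpz', ← hqz', smul_add, smul_smul, smul_smul, smul_neg]
    have e2 : v * (1 / 2) = v / 2 := by ring
    rw [e2]
    abel
  have hsubset : (⋃ x ∈ S, (fun y => y + -x) ⁻¹' ((v / 2) • C)) ⊆ (1 + v / 2) • C := by
    intro z hz
    rw [Set.mem_iUnion₂] at hz
    obtain ⟨x, hx, p, hp, hpz⟩ := hz
    have hpz' : (v / 2) • p = z + -x := hpz
    have hpos : 0 < 1 + v / 2 := by positivity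
    refine ⟨(1 / (1 + v / 2)) • x + ((v / 2) / (1 + v / 2)) • p,
      hC.2.1 (hSC x hx) hp (by positivity) (by positivity) (by field_simp), ?_⟩
    show (1 + v / 2) • ((1 / (1 + v / 2)) • x + ((v / 2) / (1 + v / 2)) • p) = z
    rw [smul_add, smul_smul, smul_smul]
    have e1 : (1 + v / 2) * (1 / (1 + v / 2)) = 1 := by field_simp
    have e2 : (1 + v / 2) * ((v / 2) / (1 + v / 2)) = v / 2 := by field_simp
    rw [e1, e2, one_smul, hpz']
    abel
  have hμpos : 0 < μ C := Measure.measure_pos_of_nonempty_interior μ hC.2.2.1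
  have hμfin : μ C < ⊤ := hC.1.measure_lt_top
  have hmeas : μ (⋃ x ∈ S, (fun y => y + -x) ⁻¹' ((v / 2) • C))
      = ∑ x ∈ S, μ ((fun y => y + -x) ⁻¹' ((v / 2) • C)) :=
    measure_biUnion_finset hdisj (fun x _ => (measurable_add_const (-x)) hBmeas)
  have h2 : ∀ x ∈ S, μ ((fun y => y + -x) ⁻¹' ((v / 2) • C))
      = ENNReal.ofReal ((v / 2) ^ Module.finrank ℝ E) * μ C := by
    intro x _
    rw [measure_preimage_add_right, Measure.addHaar_smul, abs_of_pos (pow_pos hv2 _)]
  have h1 : (S.card : ENNReal) * (ENNReal.ofReal ((v / 2) ^ Module.finrank ℝ E) * μ C)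
      ≤ ENNReal.ofReal ((1 + v / 2) ^ Module.finrank ℝ E) * μ C := by
    have hle := measure_mono (μ := μ) hsubset
    rw [hmeas, Finset.sum_congr rfl h2, Finset.sum_const, nsmul_eq_mul, Measure.addHaar_smul,
      abs_of_pos (pow_pos (by positivity : (0 : ℝ) < 1 + v / 2) _)] at hle
    exact hle
  have hfin : ENNReal.ofReal ((1 + v / 2) ^ Module.finrank ℝ E) * μ C ≠ ⊤ :=
    ENNReal.mul_ne_top ENNReal.ofReal_ne_top hμfin.ne
  have h3 := ENNReal.toReal_mono hfin h1
  rw [ENNReal.toReal_mul, ENNReal.toReal_mul, ENNReal.toReal_mul, ENNReal.toReal_natCast,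
    ENNReal.toReal_ofReal (pow_pos hv2 _).le,
    ENNReal.toReal_ofReal (pow_pos (by positivity : (0 : ℝ) < 1 + v / 2) _).le, hcard] at h3
  have hpos : 0 < (μ C).toReal := ENNReal.toReal_pos hμpos.ne' hμfin.ne
  have h4 : ((covNum C (v • C) : ℝ) * (v / 2) ^ Module.finrank ℝ E) * (μ C).toReal
      ≤ (1 + v / 2) ^ Module.finrank ℝ E * (μ C).toReal := by
    rw [mul_assoc]
    exact h3
  exact le_of_mul_le_mul_right h4 hpos

/-- comparison of the covering numbers of two symmetric convex bodies of the same space by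
their own dilates: `N(C', 3 u C') ≤ N(C, u C)` -/
lemma covNum_three_le (μ : Measure E) [μ.IsAddHaarMeasure] {C C' : Set E} (hC : IsSymmBody C)
    (hC' : IsSymmBody C') {u : ℝ} (hu : 0 < u) :
    covNum C' ((3 * u) • C') ≤ covNum C (u • C) := by
  have hcovC : ∃ T : Finset E, ∀ y ∈ C, ∃ x ∈ T, y - x ∈ u • C :=
    exists_cover hC.1 ((set_smul_mem_nhds_zero_iff hu.ne').mpr hC.mem_nhds)
  have hN : 1 ≤ covNum C (u • C) := covNum_pos ⟨0, hC.zero_mem⟩ hcovC
  by_cases h3 : 1 ≤ 3 * u
  · have h1 : covNum C' ((3 * u) • C') ≤ ({0} : Finset E).card := by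
      apply covNum_le
      intro y hy
      refine ⟨0, Finset.mem_singleton_self 0, ?_⟩
      rw [sub_zero]
      have h3u : 0 < 3 * u := by positivity
      refine ⟨(1 / (3 * u)) • y, ?_, ?_⟩
      · exact hC'.2.1.smul_mem_of_zero_mem hC'.zero_mem hy
          ⟨by positivity, by rw [div_le_one h3u]; exact h3⟩
      · show (3 * u) • ((1 / (3 * u)) • y) = y
        rw [smul_smul, mul_one_div_cancel h3u.ne', one_smul]
    rw [Finset.card_singleton] at h1
    omega
  · push Not at h3
    have hV1 := one_le_covNum_mul_pow μ hC hu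
    have hV2 := covNum_mul_pow_le μ hC' (v := 3 * u) (by positivity)
    have e1 : (3 * u / 2) ^ Module.finrank ℝ E
        = (3 / 2 : ℝ) ^ Module.finrank ℝ E * u ^ Module.finrank ℝ E := by
      rw [← mul_pow]
      congr 1
      ring
    have e2 : (1 + 3 * u / 2) ^ Module.finrank ℝ E ≤ (3 / 2 : ℝ) ^ Module.finrank ℝ E :=
      pow_le_pow_left₀ (by positivity) (by linarith) _
    have hun : 0 < u ^ Module.finrank ℝ E := pow_pos hu _
    have h32 : 0 < (3 / 2 : ℝ) ^ Module.finrank ℝ E := by positivity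
    have h5 : (covNum C' ((3 * u) • C') : ℝ) * u ^ Module.finrank ℝ E ≤ 1 := by
      rw [e1] at hV2
      have h6 : (3 / 2 : ℝ) ^ Module.finrank ℝ E
          * ((covNum C' ((3 * u) • C') : ℝ) * u ^ Module.finrank ℝ E)
          ≤ (3 / 2 : ℝ) ^ Module.finrank ℝ E * 1 := by
        rw [mul_one]
        calc (3 / 2 : ℝ) ^ Module.finrank ℝ E
              * ((covNum C' ((3 * u) • C') : ℝ) * u ^ Module.finrank ℝ E)
            = (covNum C' ((3 * u) • C') : ℝ)
              * ((3 / 2 : ℝ) ^ Module.finrank ℝ E * u ^ Module.finrank ℝ E) := by ring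
          _ ≤ (1 + 3 * u / 2) ^ Module.finrank ℝ E := hV2
          _ ≤ (3 / 2 : ℝ) ^ Module.finrank ℝ E := e2
      exact le_of_mul_le_mul_left h6 h32
    have h7 : (covNum C' ((3 * u) • C') : ℝ) * u ^ Module.finrank ℝ E
        ≤ (covNum C (u • C) : ℝ) * u ^ Module.finrank ℝ E := le_trans h5 hV1
    exact_mod_cast le_of_mul_le_mul_right h7 hun

end vol

section homothetic

variable {E : Type*} [NormedAddCommGroup E] [InnerProductSpace ℝ E] [FiniteDimensional ℝ E]
  [MeasurableSpace E] [BorelSpace E]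

/-- homothetic pairs `(K, c K)` satisfy the duality inequalities with `a = 3`, `b = 1` -/
theorem duality_homothetic (μ : Measure E) [μ.IsAddHaarMeasure] {K : Set E} (hK : IsSymmBody K)
    {c : ℝ} (hc : 0 < c) (t : ℝ) (ht : 0 < t) :
    (1 / (1 : ℝ)) * Real.log (covNum (polarSet (t • (c • K))) ((3 : ℝ) • polarSet K))
        ≤ Real.log (covNum K (t • (c • K))) ∧
      Real.log (covNum K (t • (c • K)))
        ≤ (1 : ℝ) * Real.log (covNum (polarSet (t • (c • K))) ((3 : ℝ)⁻¹ • polarSet K)) := by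
  have hs : 0 < t * c := mul_pos ht hc
  have hKo : IsSymmBody (polarSet K) := hK.polar
  rw [smul_smul, polarSet_smul K hs]
  have e1 : covNum ((t * c)⁻¹ • polarSet K) ((3 : ℝ) • polarSet K)
      = covNum (polarSet K) ((3 * (t * c)) • polarSet K) := by
    rw [← covNum_smul ((t * c)⁻¹ • polarSet K) ((3 : ℝ) • polarSet K) hs.ne', smul_smul,
      mul_inv_cancel₀ hs.ne', one_smul, smul_smul, mul_comm (t * c) 3]
  have e2 : covNum ((t * c)⁻¹ • polarSet K) ((3 : ℝ)⁻¹ • polarSet K)
      = covNum (polarSet K) ((t * c / 3) • polarSet K) := by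
    rw [← covNum_smul ((t * c)⁻¹ • polarSet K) ((3 : ℝ)⁻¹ • polarSet K) hs.ne', smul_smul,
      mul_inv_cancel₀ hs.ne', one_smul, smul_smul, ← div_eq_mul_inv]
  rw [e1, e2, div_one, one_mul, one_mul]
  have hL := covNum_three_le μ hK hKo hs
  have hR := covNum_three_le μ hKo hK (u := t * c / 3) (by positivity)
  rw [show 3 * (t * c / 3) = t * c by ring] at hR
  have hposL : 1 ≤ covNum (polarSet K) ((3 * (t * c)) • polarSet K) :=
    covNum_pos ⟨0, hKo.zero_mem⟩ (exists_cover hKo.1
      ((set_smul_mem_nhds_zero_iff (by positivity : (3 * (t * c)) ≠ 0)).mpr hKo.mem_nhds))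
  have hposK : 1 ≤ covNum K ((t * c) • K) :=
    covNum_pos ⟨0, hK.zero_mem⟩ (exists_cover hK.1
      ((set_smul_mem_nhds_zero_iff hs.ne').mpr hK.mem_nhds))
  constructor
  · exact Real.log_le_log (by exact_mod_cast hposL) (by exact_mod_cast hL)
  · exact Real.log_le_log (by exact_mod_cast hposK) (by exact_mod_cast hR)

end homothetic

section sandwich

variable {E : Type*} [NormedAddCommGroup E] [InnerProductSpace ℝ E] [FiniteDimensional ℝ E]
  [MeasurableSpace E] [BorelSpace E]

omit [NormedAddCommGroup E] [InnerProductSpace ℝ E] [FiniteDimensional ℝ E] [MeasurableSpace E]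
  [BorelSpace E] in
lemma covNum_mono_left {F : Type*} [AddCommGroup F] {A A' B : Set F} (hAA' : A ⊆ A')
    (h : ∃ T : Finset F, ∀ y ∈ A', ∃ x ∈ T, y - x ∈ B) : covNum A B ≤ covNum A' B := by
  obtain ⟨T, hT, hcov⟩ := exists_cover_card_eq h
  rw [← hT]
  exact covNum_le (fun y hy => hcov y (hAA' hy))

omit [FiniteDimensional ℝ E] [MeasurableSpace E] [BorelSpace E] in
lemma polarSet_anti {K L : Set E} (h : K ⊆ L) : polarSet L ⊆ polarSet K :=
  fun _ hy x hx => hy x (h hx)

/-- pairs `(K, L)` with `c K ⊆ L ⊆ c d K` satisfy the duality inequalities with `a = 3 d`,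
`b = 1` -/
theorem duality_sandwich (μ : Measure E) [μ.IsAddHaarMeasure] {K L : Set E} (hK : IsSymmBody K)
    (hL : IsSymmBody L) {c d : ℝ} (hc : 0 < c) (hd : 1 ≤ d) (h1 : c • K ⊆ L)
    (h2 : L ⊆ (c * d) • K) (t : ℝ) (ht : 0 < t) :
    (1 / (1 : ℝ)) * Real.log (covNum (polarSet (t • L)) ((3 * d) • polarSet K))
        ≤ Real.log (covNum K (t • L)) ∧
      Real.log (covNum K (t • L))
        ≤ (1 : ℝ) * Real.log (covNum (polarSet (t • L)) ((3 * d)⁻¹ • polarSet K)) := by
  have hd0 : 0 < d := lt_of_lt_of_le one_pos hd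
  have hs : 0 < t * c := mul_pos ht hc
  have hsd : 0 < t * c * d := mul_pos hs hd0
  have hKo : IsSymmBody (polarSet K) := hK.polar
  have hLt : IsSymmBody (t • L) := hL.smul ht
  -- inclusions at scale `t`
  have i1 : (t * c) • K ⊆ t • L := by
    rw [← smul_smul]
    exact Set.smul_set_mono h1
  have i2 : t • L ⊆ (t * c * d) • K := by
    rw [mul_assoc, ← smul_smul]
    exact Set.smul_set_mono h2
  -- covers
  have cov1 : ∃ T : Finset E, ∀ y ∈ K, ∃ x ∈ T, y - x ∈ (t * c) • K :=
    exists_cover hK.1 ((set_smul_mem_nhds_zero_iff hs.ne').mpr hK.mem_nhds)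
  have cov2 : ∃ T : Finset E, ∀ y ∈ K, ∃ x ∈ T, y - x ∈ t • L :=
    exists_cover hK.1 hLt.mem_nhds
  have cov3 : ∀ {M : Set E} {r : ℝ}, IsSymmBody M → 0 < r →
      ∃ T : Finset E, ∀ y ∈ polarSet M, ∃ x ∈ T, y - x ∈ r • polarSet K :=
    fun hM hr => exists_cover (isCompact_polarSet hM.mem_nhds)
      (smul_polarSet_mem_nhds hK.1.isBounded hr)
  have h3d : 0 < 3 * d := by positivity
  rw [div_one, one_mul, one_mul]
  constructor
  · -- left inequality
    have a1 : covNum (polarSet (t • L)) ((3 * d) • polarSet K)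
        ≤ covNum (polarSet ((t * c) • K)) ((3 * d) • polarSet K) :=
      covNum_mono_left (polarSet_anti i1) (cov3 (hK.smul hs) h3d)
    have a2 : covNum (polarSet ((t * c) • K)) ((3 * d) • polarSet K)
        = covNum (polarSet K) ((3 * (t * c * d)) • polarSet K) := by
      rw [polarSet_smul K hs,
        ← covNum_smul ((t * c)⁻¹ • polarSet K) ((3 * d) • polarSet K) hs.ne', smul_smul,
        mul_inv_cancel₀ hs.ne', one_smul, smul_smul]
      congr 2
      ring
    have a3 : covNum (polarSet K) ((3 * (t * c * d)) • polarSet K)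
        ≤ covNum K ((t * c * d) • K) := covNum_three_le μ hK hKo hsd
    have a4 : covNum K ((t * c * d) • K) ≤ covNum K (t • L) := covNum_mono_right i2 cov2
    have hpos : 1 ≤ covNum (polarSet (t • L)) ((3 * d) • polarSet K) :=
      covNum_pos ⟨0, zero_mem_polarSet _⟩ (cov3 hLt h3d)
    apply Real.log_le_log (by exact_mod_cast hpos)
    have : covNum (polarSet (t • L)) ((3 * d) • polarSet K) ≤ covNum K (t • L) := by
      rw [a2] at a1
      exact le_trans a1 (le_trans a3 a4)
    exact_mod_cast this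
  · -- right inequality
    have b1 : covNum K (t • L) ≤ covNum K ((t * c) • K) := covNum_mono_right i1 cov1
    have b2 : covNum K ((t * c) • K) ≤ covNum (polarSet K) ((t * c / 3) • polarSet K) := by
      have := covNum_three_le μ hKo hK (u := t * c / 3) (by positivity)
      rwa [show 3 * (t * c / 3) = t * c by ring] at this
    have b3 : covNum (polarSet ((t * c * d) • K)) ((3 * d)⁻¹ • polarSet K)
        = covNum (polarSet K) ((t * c / 3) • polarSet K) := by
      rw [polarSet_smul K hsd,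
        ← covNum_smul ((t * c * d)⁻¹ • polarSet K) ((3 * d)⁻¹ • polarSet K) hsd.ne', smul_smul,
        mul_inv_cancel₀ hsd.ne', one_smul, smul_smul]
      congr 2
      field_simp
    have b4 : covNum (polarSet ((t * c * d) • K)) ((3 * d)⁻¹ • polarSet K)
        ≤ covNum (polarSet (t • L)) ((3 * d)⁻¹ • polarSet K) :=
      covNum_mono_left (polarSet_anti i2) (cov3 hLt (by positivity))
    have hpos : 1 ≤ covNum K (t • L) := covNum_pos ⟨0, hK.zero_mem⟩ cov2
    apply Real.log_le_log (by exact_mod_cast hpos)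
    have : covNum K (t • L) ≤ covNum (polarSet (t • L)) ((3 * d)⁻¹ • polarSet K) := by
      rw [b3] at b4
      exact le_trans b1 (le_trans b2 b4)
    exact_mod_cast this

end sandwich

/-- **Duality of metric entropy for products of pairs of bounded distortion.**  Let `K i`, `L i`
be origin-symmetric convex bodies in `R^(n i)` with `c i • K i ⊆ L i ⊆ (c i * d) • K i` for
positive reals `c i` and one `d ≥ 1`.  Then the product bodies `K = prod K i` and
`L = prod L i` satisfy the duality inequalities with the constants `a = 48 d`, `b = 5`, at every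
scale. -/
theorem duality_block {ι : Type} [Fintype ι] (n : ι → ℕ)
    (K L : ∀ i, Set (EuclideanSpace ℝ (Fin (n i)))) (hK : ∀ i, IsSymmBody (K i))
    (hL : ∀ i, IsSymmBody (L i)) (c : ι → ℝ) (hc : ∀ i, 0 < c i) (d : ℝ) (hd : 1 ≤ d)
    (h1 : ∀ i, c i • K i ⊆ L i) (h2 : ∀ i, L i ⊆ (c i * d) • K i) :
    ∀ t : ℝ, 0 < t →
      (1 / 5) * Real.log (covNum (polarSet (t • prodBody L))
          ((48 * d) • polarSet (prodBody K)))
        ≤ Real.log (covNum (prodBody K) (t • prodBody L)) ∧
      Real.log (covNum (prodBody K) (t • prodBody L))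
        ≤ 5 * Real.log (covNum (polarSet (t • prodBody L))
            ((48 * d)⁻¹ • polarSet (prodBody K))) := by
  intro t ht
  have h := duality_prod K L hK hL (3 * d) 1 (by linarith) le_rfl
    (fun i t' ht' => duality_sandwich volume (hK i) (hL i) (hc i) hd (h1 i) (h2 i) t' ht') t ht
  rw [show (16 : ℝ) * (3 * d) = 48 * d by ring, show (5 : ℝ) * 1 = 5 by norm_num] at h
  exact h

end Vale.Agent.Lib.P126
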