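import Mathlib

namespace Vale.Agent.Lib.P126

open Finset

lemma geom_bound (N U : ℕ) :
    ∑ n ∈ Finset.range U, Real.exp (-((n:ℝ) / (N + 1))) ≤ (N:ℝ) + 2 := by
  set r := Real.exp (-(1 / ((N:ℝ) + 1))) with hr
  have hr0 : 0 < r := Real.exp_pos _
  have hr1 : r ≤ ((N:ℝ) + 1) / (N + 2) := by
    have h := Real.add_one_le_exp (1 / ((N:ℝ) + 1))
    rw [hr, Real.exp_neg]
    rw [inv_le_comm₀ (Real.exp_pos _) (by positivity)]
    calc (((N:ℝ) + 1) / (N + 2))⁻¹ = 1 / ((N:ℝ) + 1) + 1 := by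
          field_simp
          ring
      _ ≤ _ := h
  have hr_lt : r < 1 := lt_of_le_of_lt hr1 (by
    rw [div_lt_one (by positivity)]
    linarith)
  have e : ∀ n : ℕ, Real.exp (-((n:ℝ) / (N + 1))) = r ^ n := by
    intro n
    rw [hr, ← Real.exp_nat_mul]
    congr 1
    ring
  simp_rw [e]
  rw [geom_sum_eq hr_lt.ne]
  have h1 : (r ^ U - 1) / (r - 1) = (1 - r ^ U) / (1 - r) := by
    rw [← neg_sub, ← neg_sub (1:ℝ) r, neg_div_neg_eq]
  rw [h1, div_le_iff₀ (by linarith)]
  have h2 : 0 ≤ r ^ U := by positivity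
  have h3 : 1 ≤ ((N:ℝ) + 2) * (1 - r) := by
    have : ((N:ℝ) + 2) * r ≤ N + 1 := by
      rw [le_div_iff₀ (by positivity)] at hr1
      linarith
    linarith
  linarith

lemma exp_mul_le (N : ℕ) (h : 2 ≤ N) : Real.exp 1 * ((N:ℝ) + 2) ≤ (N:ℝ) ^ 4 := by
  have hx : (2:ℝ) ≤ N := by exact_mod_cast h
  have he : Real.exp 1 < 2.7182818286 := Real.exp_one_lt_d9
  have h3 : (8:ℝ) ≤ (N:ℝ) ^ 3 := by nlinarith [sq_nonneg ((N:ℝ) - 2), sq_nonneg (N:ℝ)]
  have h4 : 8 * (N:ℝ) ≤ (N:ℝ) ^ 4 := by nlinarith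
  nlinarith

lemma lattice_count {ι : Type*} [Fintype ι] [DecidableEq ι] (act : Finset ι) (N : ι → ℕ) :
    (((Fintype.piFinset (fun i => if i ∈ act then Finset.range (act.card * (N i + 1) + 1)
        else {0})).filter
        (fun n : ι → ℕ => ∑ i ∈ act, (n i : ℝ) / (N i + 1) ≤ act.card)).card : ℝ)
      ≤ ∏ i ∈ act, (Real.exp 1 * ((N i : ℝ) + 2)) := by
  set m := act.card with hm
  set R : ι → Finset ℕ := fun i => if i ∈ act then Finset.range (m * (N i + 1) + 1) else {0}
    with hR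
  set g : ι → ℕ → ℝ := fun i n => if i ∈ act then Real.exp (-((n:ℝ) / (N i + 1))) else 1 with hg
  have hprod : ∀ n : ι → ℕ, ∏ i, g i (n i) = Real.exp (-(∑ i ∈ act, (n i : ℝ) / (N i + 1))) := by
    intro n
    rw [← Finset.sum_neg_distrib, Real.exp_sum]
    simp only [hg]
    rw [Finset.prod_ite_mem, Finset.univ_inter]
  rw [Finset.card_filter]
  push_cast
  calc ∑ n ∈ Fintype.piFinset R, (if ∑ i ∈ act, (n i : ℝ) / (N i + 1) ≤ m then (1:ℝ) else 0)
      ≤ ∑ n ∈ Fintype.piFinset R, Real.exp m * ∏ i, g i (n i) := by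
        apply Finset.sum_le_sum
        intro n _
        rw [hprod n, ← Real.exp_add]
        split_ifs with h
        · apply Real.one_le_exp
          linarith
        · exact (Real.exp_pos _).le
    _ = Real.exp m * ∏ i, ∑ n ∈ R i, g i n := by
        rw [← Finset.mul_sum, Finset.prod_univ_sum]
    _ ≤ Real.exp m * ∏ i, (if i ∈ act then ((N i : ℝ) + 2) else 1) := by
        apply mul_le_mul_of_nonneg_left _ (Real.exp_pos _).le
        apply Finset.prod_le_prod
        · intro i _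
          apply Finset.sum_nonneg
          intro n _
          simp only [hg]
          split_ifs
          · exact (Real.exp_pos _).le
          · exact zero_le_one
        · intro i _
          simp only [hg, hR]
          split_ifs with hi
          · exact geom_bound (N i) _
          · simp
    _ = ∏ i ∈ act, (Real.exp 1 * ((N i : ℝ) + 2)) := by
        rw [Finset.prod_mul_distrib, Finset.prod_const, ← Real.exp_nat_mul, mul_one,
          Finset.prod_ite_mem, Finset.univ_inter]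

end Vale.Agent.Lib.P126
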