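import Vale.Agent.Lib.P126.Polar

namespace Vale.Agent.Lib.P126

open scoped Pointwise Topology

section scale

variable {E : Type*} [AddCommGroup E] [Module ℝ E]

lemma cover_smul_aux {A B : Set E} {c : ℝ} (hc : c ≠ 0) {m : ℕ}
    (h : ∃ T : Finset E, T.card = m ∧ ∀ y ∈ A, ∃ x ∈ T, y - x ∈ B) :
    ∃ T : Finset E, T.card = m ∧ ∀ y ∈ c • A, ∃ x ∈ T, y - x ∈ c • B := by
  classical
  obtain ⟨T, hT, hcov⟩ := h
  refine ⟨T.image (fun x => c • x), ?_, ?_⟩
  · rw [Finset.card_image_of_injective _ (smul_right_injective E hc), hT]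
  · rintro _ ⟨y, hy, rfl⟩
    obtain ⟨x, hx, hxy⟩ := hcov y hy
    refine ⟨c • x, Finset.mem_image_of_mem _ hx, ?_⟩
    rw [← smul_sub]
    exact Set.smul_mem_smul_set hxy

lemma covNum_smul (A B : Set E) {c : ℝ} (hc : c ≠ 0) : covNum (c • A) (c • B) = covNum A B := by
  unfold covNum
  congr 1
  ext m
  constructor
  · intro h
    have h1 := cover_smul_aux (inv_ne_zero hc) h
    rwa [inv_smul_smul₀ hc, inv_smul_smul₀ hc] at h1
  · intro h
    exact cover_smul_aux hc h

omit [Module ℝ E] in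
lemma covNum_mono_right {A B B' : Set E} (hBB' : B ⊆ B')
    (h : ∃ T : Finset E, ∀ y ∈ A, ∃ x ∈ T, y - x ∈ B) : covNum A B' ≤ covNum A B := by
  obtain ⟨T, hT, hcov⟩ := exists_cover_card_eq h
  rw [← hT]
  exact covNum_le (fun y hy => by
    obtain ⟨x, hx, hxy⟩ := hcov y hy
    exact ⟨x, hx, hBB' hxy⟩)

end scale

section pigeon

variable {E : Type*} [NormedAddCommGroup E] [InnerProductSpace ℝ E]

/-- If `A` is balanced and covered by the translates `x + B`, `x ∈ T`, and the functional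
`<k, .>` is bounded by `c` in absolute value on `B`, then it is bounded by `c * |T|` on `A`. -/
lemma inner_le_mul_card_of_cover {A B : Set E} {T : Finset E}
    (hA : ∀ y ∈ A, ∀ t : ℝ, |t| ≤ 1 → t • y ∈ A)
    (hT : ∀ y ∈ A, ∃ x ∈ T, y - x ∈ B) (k : E) (c : ℝ)
    (hB : ∀ z ∈ B, |inner ℝ k z| ≤ c) (y : E) (hy : y ∈ A) :
    inner ℝ k y ≤ c * T.card := by
  classical
  obtain ⟨x0, hx0, hx0B⟩ := hT y hy
  have hc : 0 ≤ c := le_trans (abs_nonneg _) (hB _ hx0B)
  have hNpos : 0 < T.card := Finset.card_pos.mpr ⟨x0, hx0⟩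
  have hNR : (0:ℝ) < T.card := by exact_mod_cast hNpos
  set N := T.card with hN
  let p : ℕ → E := fun j => ((2 * (j:ℝ) / N) - 1) • y
  have hpA : ∀ j ∈ Finset.range (N + 1), p j ∈ A := by
    intro j hj
    apply hA y hy
    have hjN : (j:ℝ) ≤ N := by exact_mod_cast Nat.lt_succ_iff.mp (Finset.mem_range.mp hj)
    have hj0 : (0:ℝ) ≤ j := Nat.cast_nonneg j
    rw [abs_le]
    constructor
    · have : 0 ≤ 2 * (j:ℝ) / N := by positivity
      linarith
    · have : 2 * (j:ℝ) / N ≤ 2 := by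
        rw [div_le_iff₀ hNR]
        linarith
      linarith
  have h1 : ∀ j ∈ Finset.range (N + 1), ∃ x ∈ T, p j - x ∈ B := fun j hj => hT _ (hpA j hj)
  choose! f hfT hfB using h1
  obtain ⟨j, hj, l, hl, hjl, hfjl⟩ := Finset.exists_ne_map_eq_of_card_lt_of_maps_to
    (s := Finset.range (N + 1)) (t := T) (by simp [hN]) (fun j hj => hfT j hj)
  have h2 : |inner ℝ k (p l - p j)| ≤ 2 * c := by
    have e : p l - p j = (p l - f l) - (p j - f l) := by abel
    rw [e, inner_sub_right]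
    have hb1 := hB _ (hfB l hl)
    have hb2 := hB _ (hfB j hj)
    rw [hfjl] at hb2
    calc |inner ℝ k (p l - f l) - inner ℝ k (p j - f l)|
        ≤ |inner ℝ k (p l - f l)| + |inner ℝ k (p j - f l)| := abs_sub _ _
      _ ≤ 2 * c := by linarith
  have h3 : p l - p j = (2 * ((l:ℝ) - j) / N) • y := by
    simp only [p]
    rw [← sub_smul]
    congr 1
    field_simp
    ring
  rw [h3, inner_smul_right, abs_mul] at h2
  have h4 : 2 / (N:ℝ) ≤ |2 * ((l:ℝ) - j) / N| := by
    rw [abs_div, abs_mul, abs_of_pos hNR, abs_of_pos (by norm_num : (0:ℝ) < 2)]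
    apply div_le_div_of_nonneg_right _ hNR.le
    have : 1 ≤ |(l:ℝ) - j| := by
      rcases Nat.lt_or_gt_of_ne hjl with h | h
      · have : (j:ℝ) + 1 ≤ l := by exact_mod_cast h
        rw [abs_of_nonneg (by linarith)]
        linarith
      · have : (l:ℝ) + 1 ≤ j := by exact_mod_cast h
        rw [abs_of_nonpos (by linarith)]
        linarith
    linarith
  have h5 : 2 / (N:ℝ) * |inner ℝ k y| ≤ 2 * c :=
    le_trans (mul_le_mul_of_nonneg_right h4 (abs_nonneg _)) h2
  have h6 : |inner ℝ k y| ≤ c * N := by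
    rw [div_mul_eq_mul_div, div_le_iff₀ hNR] at h5
    linarith
  exact le_trans (le_abs_self _) h6

lemma abs_inner_le_of_mem_smul_polarSet {K : Set E} (hK : ∀ x ∈ K, -x ∈ K) {s : ℝ} (hs : 0 < s)
    {k z : E} (hk : k ∈ K) (hz : z ∈ s • polarSet K) : |inner ℝ k z| ≤ s := by
  rw [mem_smul_polarSet hs] at hz
  rw [abs_le]
  constructor
  · have := hz (-k) (hK k hk)
    rw [inner_neg_left] at this
    linarith
  · exact hz k hk

lemma smul_mem_polarSet {L : Set E} (hL : ∀ x ∈ L, -x ∈ L) {y : E} (hy : y ∈ polarSet L)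
    {t : ℝ} (ht : |t| ≤ 1) : t • y ∈ polarSet L := by
  intro x hx
  rw [inner_smul_right]
  have h1 : |inner ℝ x y| ≤ 1 := by
    rw [abs_le]
    constructor
    · have := hy (-x) (hL x hx)
      rw [inner_neg_left] at this
      linarith
    · exact hy x hx
  calc t * inner ℝ x y ≤ |t * inner ℝ x y| := le_abs_self _
    _ = |t| * |inner ℝ x y| := abs_mul _ _
    _ ≤ 1 * 1 := mul_le_mul ht h1 (abs_nonneg _) zero_le_one
    _ = 1 := one_mul 1

end pigeon

end Vale.Agent.Lib.P126
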