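import Vale.Agent.Lib.P126.Product
import Vale.Agent.Lib.P126.Scale
import Vale.Agent.Lib.P126.Lattice

namespace Vale.Agent.Lib.P126

open scoped Pointwise Topology

section aux

variable {E : Type*} [NormedAddCommGroup E] [InnerProductSpace ℝ E]

lemma neg_mem_polarSet {L : Set E} (hL : ∀ x ∈ L, -x ∈ L) {y : E} (hy : y ∈ polarSet L) :
    -y ∈ polarSet L := by
  have h := smul_mem_polarSet hL hy (t := -1) (by simp)
  simpa using h

lemma eq_zero_of_inner_le_zero {L : Set E} (hL : L ∈ 𝓝 (0 : E)) {y : E}
    (h : ∀ x ∈ L, inner ℝ x y ≤ 0) : y = 0 := by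
  by_contra hy
  obtain ⟨r, hr, hball⟩ := Metric.mem_nhds_iff.mp hL
  have hny : 0 < ‖y‖ := norm_pos_iff.mpr hy
  have hx : (r / 2 / ‖y‖) • y ∈ L := by
    apply hball
    rw [mem_ball_zero_iff, norm_smul, Real.norm_of_nonneg (by positivity),
      div_mul_cancel₀ _ hny.ne']
    linarith
  have h1 := h _ hx
  rw [inner_smul_left, real_inner_self_eq_norm_sq] at h1
  simp only [conj_trivial] at h1
  have : 0 < r / 2 / ‖y‖ * ‖y‖ ^ 2 := by positivity
  linarith

end aux

section left

variable {ι : Type*} [Fintype ι] {E : ι → Type*} [∀ i, NormedAddCommGroup (E i)]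
  [∀ i, InnerProductSpace ℝ (E i)] [∀ i, FiniteDimensional ℝ (E i)]

/-- Upper tensorization: the dual covering number of a product (at twice the scale) is at most
the product of the fifth powers of the dual covering numbers of the factors. -/
theorem covNum_polar_prod_le (K L : ∀ i, Set (E i)) (hK : ∀ i, IsSymmBody (K i))
    (hL : ∀ i, IsSymmBody (L i)) (s : ℝ) (hs : 0 < s) :
    (covNum (polarSet (prodBody L)) ((2 * s) • polarSet (prodBody K)) : ℝ)
      ≤ ∏ i, (covNum (polarSet (L i)) (s • polarSet (K i)) : ℝ) ^ 5 := by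
  classical
  set N : ι → ℕ := fun i => covNum (polarSet (L i)) (s • polarSet (K i)) with hN
  have hex : ∀ i, ∃ T : Finset (E i), ∀ y ∈ polarSet (L i), ∃ x ∈ T,
      y - x ∈ s • polarSet (K i) := fun i =>
    exists_cover (isCompact_polarSet (hL i).mem_nhds)
      (smul_polarSet_mem_nhds (hK i).1.isBounded hs)
  have hT : ∀ i, ∃ T : Finset (E i), T.card = N i ∧ ∀ y ∈ polarSet (L i), ∃ x ∈ T,
      y - x ∈ s • polarSet (K i) := fun i => exists_cover_card_eq (hex i)
  choose T hTcard hTcov using hT
  have hNpos : ∀ i, 1 ≤ N i := fun i => covNum_pos ⟨0, zero_mem_polarSet _⟩ (hex i)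
  set act : Finset ι := Finset.univ.filter (fun i => 2 ≤ N i) with hact
  set m : ℕ := act.card with hm
  have F1 : ∀ i, i ∉ act → ∀ y ∈ polarSet (L i), ∀ k ∈ K i, inner ℝ k y ≤ s := by
    intro i hi y hy k hk
    have hN1 : N i = 1 := by
      have h1 := hNpos i
      have h2 : ¬ 2 ≤ N i := fun h => hi (Finset.mem_filter.mpr ⟨Finset.mem_univ i, h⟩)
      omega
    obtain ⟨x0, hx0⟩ := Finset.card_eq_one.mp ((hTcard i).trans hN1)
    obtain ⟨x, hx, hxy⟩ := hTcov i y hy
    obtain ⟨x', hx', hxy'⟩ := hTcov i (-y) (neg_mem_polarSet (hL i).2.2.2 hy)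
    rw [hx0, Finset.mem_singleton] at hx hx'
    rw [hx] at hxy
    rw [hx'] at hxy'
    rw [mem_smul_polarSet hs] at hxy hxy'
    have h1 := hxy k hk
    have h2 := hxy' (-k) ((hK i).2.2.2 k hk)
    rw [inner_sub_right] at h1
    rw [inner_neg_left, inner_sub_right, inner_neg_right] at h2
    linarith
  have F2 : ∀ i, ∀ y ∈ polarSet (L i), ∀ k ∈ K i, inner ℝ k y ≤ s * N i := by
    intro i y hy k hk
    have h1 := inner_le_mul_card_of_cover (A := polarSet (L i)) (B := s • polarSet (K i))
      (T := T i) (fun y hy t ht => smul_mem_polarSet (hL i).2.2.2 hy ht) (hTcov i) k s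
      (fun z hz => abs_inner_le_of_mem_smul_polarSet (hK i).2.2.2 hs hk hz) y hy
    rwa [hTcard i] at h1
  have F3 : ∀ i, ∀ y ∈ polarSet (L i), ∀ x, y - x ∈ s • polarSet (K i) →
      ∀ k ∈ K i, inner ℝ k x ≤ s * (N i + 1) := by
    intro i y hy x hxy k hk
    have h1 := F2 i y hy k hk
    rw [mem_smul_polarSet hs] at hxy
    have h2 := hxy (-k) ((hK i).2.2.2 k hk)
    rw [inner_neg_left, inner_sub_right] at h2
    linarith
  set G : Finset (ι → ℕ) := (Fintype.piFinset (fun i => if i ∈ act then
      Finset.range (m * (N i + 1) + 1) else {0})).filter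
        (fun n : ι → ℕ => ∑ i ∈ act, (n i : ℝ) / (N i + 1) ≤ m) with hG
  let z : ((∀ i, E i) × (ι → ℕ)) → PiLp 2 E := fun q =>
    WithLp.toLp 2 (fun i => if i ∈ act then ((q.2 i : ℝ) / (m * (N i + 1))) • q.1 i else 0)
  set Z : Finset (PiLp 2 E) := ((Fintype.piFinset T) ×ˢ G).image z with hZ
  have hcover : ∀ y ∈ polarSet (prodBody L), ∃ x ∈ Z,
      y - x ∈ (2 * s) • polarSet (prodBody K) := by
    intro y hy
    have hmax : ∀ i, ∃ xs ∈ L i, ∀ x ∈ L i, inner ℝ x (y i) ≤ inner ℝ xs (y i) := by
      intro i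
      obtain ⟨xs, hxs, hmax⟩ := (hL i).1.exists_isMaxOn ⟨0, (hL i).zero_mem⟩
        (f := fun x => inner ℝ x (y i)) (by fun_prop : Continuous _).continuousOn
      exact ⟨xs, hxs, fun x hx => hmax hx⟩
    choose xs hxsL hxsmax using hmax
    set lam : ι → ℝ := fun i => inner ℝ (xs i) (y i) with hlam
    have hlam0 : ∀ i, 0 ≤ lam i := by
      intro i
      have h1 := hxsmax i 0 (hL i).zero_mem
      simpa using h1
    have hlam1 : ∑ i, lam i ≤ 1 := by
      have h1 := hy (WithLp.toLp 2 xs) (fun i => hxsL i)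
      rw [PiLp.inner_apply] at h1
      exact h1
    have hy' : ∀ i, ∃ y' ∈ polarSet (L i), y i = lam i • y' := by
      intro i
      by_cases hl : lam i = 0
      · refine ⟨0, zero_mem_polarSet _, ?_⟩
        rw [smul_zero]
        apply eq_zero_of_inner_le_zero (hL i).mem_nhds
        intro x hx
        have h1 := hxsmax i x hx
        rw [← hl]
        exact h1
      · have hlpos : 0 < lam i := lt_of_le_of_ne (hlam0 i) (Ne.symm hl)
        refine ⟨(lam i)⁻¹ • y i, ?_, ?_⟩
        · intro x hx
          rw [inner_smul_right, inv_mul_le_iff₀ hlpos, mul_one]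
          exact hxsmax i x hx
        · rw [smul_smul, mul_inv_cancel₀ hl, one_smul]
    choose y' hy'mem hy'eq using hy'
    have hx : ∀ i, ∃ x ∈ T i, y' i - x ∈ s • polarSet (K i) := fun i =>
      hTcov i (y' i) (hy'mem i)
    choose x hxT hxy using hx
    set n : ι → ℕ := fun i => if i ∈ act then ⌊lam i * (m * (N i + 1))⌋₊ else 0 with hn
    have hlamle : ∀ i, lam i ≤ 1 := fun i =>
      le_trans (Finset.single_le_sum (fun j _ => hlam0 j) (Finset.mem_univ i)) hlam1
    have hnact : ∀ i ∈ act, n i = ⌊lam i * (m * (N i + 1))⌋₊ := fun i hi => if_pos hi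
    have hninact : ∀ i, i ∉ act → n i = 0 := fun i hi => if_neg hi
    have hnle : ∀ i ∈ act, (n i : ℝ) ≤ lam i * (m * (N i + 1)) := by
      intro i hi
      rw [hnact i hi]
      exact Nat.floor_le (mul_nonneg (hlam0 i)
        (mul_nonneg (Nat.cast_nonneg m) (Nat.cast_add_one_pos (N i)).le))
    have hnG : n ∈ G := by
      rw [hG, Finset.mem_filter, Fintype.mem_piFinset]
      refine ⟨fun i => ?_, ?_⟩
      · by_cases hi : i ∈ act
        · rw [if_pos hi, Finset.mem_range, hnact i hi]
          have h1 : ⌊lam i * (m * (N i + 1))⌋₊ ≤ m * (N i + 1) := by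
            apply Nat.floor_le_of_le
            push_cast
            have h2 : lam i * ((m:ℝ) * (N i + 1)) ≤ 1 * ((m:ℝ) * (N i + 1)) :=
              mul_le_mul_of_nonneg_right (hlamle i)
                (mul_nonneg (Nat.cast_nonneg m) (Nat.cast_add_one_pos (N i)).le)
            linarith
          omega
        · rw [if_neg hi, Finset.mem_singleton]
          exact hninact i hi
      · calc ∑ i ∈ act, (n i : ℝ) / (N i + 1) ≤ ∑ i ∈ act, lam i * m := by
              apply Finset.sum_le_sum
              intro i hi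
              rw [div_le_iff₀ (Nat.cast_add_one_pos (N i))]
              have h1 := hnle i hi
              linarith
          _ = (∑ i ∈ act, lam i) * m := by rw [Finset.sum_mul]
          _ ≤ 1 * m := by
              apply mul_le_mul_of_nonneg_right _ (Nat.cast_nonneg m)
              exact le_trans (Finset.sum_le_sum_of_subset_of_nonneg (Finset.subset_univ act)
                (fun i _ _ => hlam0 i)) hlam1
          _ = m := one_mul _
    refine ⟨z (x, n), Finset.mem_image_of_mem z
      (Finset.mem_product.mpr ⟨Fintype.mem_piFinset.mpr hxT, hnG⟩), ?_⟩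
    rw [mem_smul_polarSet (by positivity)]
    intro k hk
    rw [PiLp.inner_apply]
    have hterm : ∀ i, inner ℝ (k i) ((y - z (x, n)) i)
        ≤ lam i * s + (if i ∈ act then s / m else 0) := by
      intro i
      have hki : k i ∈ K i := hk i
      by_cases hi : i ∈ act
      · have hmpos : (0:ℝ) < m := by exact_mod_cast Finset.card_pos.mpr ⟨i, hi⟩
        have hu : (0:ℝ) < m * (N i + 1) := mul_pos hmpos (Nat.cast_add_one_pos (N i))
        set mu : ℝ := (n i : ℝ) / (m * (N i + 1)) with hmu
        have hzi : (y - z (x, n)) i = lam i • (y' i - x i) + (lam i - mu) • x i := by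
          show y i - (if i ∈ act then ((n i : ℝ) / (m * (N i + 1))) • x i else 0) = _
          rw [if_pos hi, hy'eq i, smul_sub, sub_smul]
          abel
        rw [hzi, inner_add_right, inner_smul_right, inner_smul_right, if_pos hi]
        have h1 : inner ℝ (k i) (y' i - x i) ≤ s := by
          have h0 := hxy i
          rw [mem_smul_polarSet hs] at h0
          exact h0 (k i) hki
        have h2 : inner ℝ (k i) (x i) ≤ s * (N i + 1) :=
          F3 i (y' i) (hy'mem i) (x i) (hxy i) (k i) hki
        have h3 : 0 ≤ lam i - mu := by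
          rw [hmu, sub_nonneg, div_le_iff₀ hu]
          exact hnle i hi
        have h4 : lam i - mu ≤ 1 / (m * (N i + 1)) := by
          rw [hmu, sub_le_iff_le_add, ← add_div, le_div_iff₀ hu]
          have h0 := Nat.lt_floor_add_one (lam i * (m * (N i + 1)))
          rw [hnact i hi]
          linarith
        have h5 : (lam i - mu) * inner ℝ (k i) (x i) ≤ s / m := by
          calc (lam i - mu) * inner ℝ (k i) (x i) ≤ (lam i - mu) * (s * (N i + 1)) :=
                mul_le_mul_of_nonneg_left h2 h3
            _ ≤ 1 / (m * (N i + 1)) * (s * (N i + 1)) :=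
                mul_le_mul_of_nonneg_right h4
                  (mul_nonneg hs.le (Nat.cast_add_one_pos (N i)).le)
            _ = s / m := by field_simp
        have h6 : lam i * inner ℝ (k i) (y' i - x i) ≤ lam i * s :=
          mul_le_mul_of_nonneg_left h1 (hlam0 i)
        linarith
      · have hzi : (y - z (x, n)) i = lam i • y' i := by
          show y i - (if i ∈ act then ((n i : ℝ) / (m * (N i + 1))) • x i else 0) = _
          rw [if_neg hi, sub_zero, hy'eq i]
        rw [hzi, inner_smul_right, if_neg hi, add_zero]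
        exact mul_le_mul_of_nonneg_left (F1 i hi (y' i) (hy'mem i) (k i) hki) (hlam0 i)
    calc ∑ i, inner ℝ (k i) ((y - z (x, n)) i)
        ≤ ∑ i, (lam i * s + (if i ∈ act then s / m else 0)) :=
          Finset.sum_le_sum (fun i _ => hterm i)
      _ = (∑ i, lam i) * s + ∑ i ∈ act, s / m := by
          rw [Finset.sum_add_distrib, Finset.sum_mul, Finset.sum_ite_mem, Finset.univ_inter]
      _ ≤ 1 * s + s := by
          apply add_le_add (mul_le_mul_of_nonneg_right hlam1 hs.le)
          rw [Finset.sum_const, nsmul_eq_mul, ← hm]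
          by_cases hm0 : m = 0
          · rw [hm0]
            simp only [Nat.cast_zero, zero_mul]
            exact hs.le
          · have hm0' : (m:ℝ) ≠ 0 := by exact_mod_cast hm0
            rw [mul_div_cancel₀ _ hm0']
      _ = 2 * s := by ring
  have hcard : (Z.card : ℝ) ≤ ∏ i, (N i : ℝ) ^ 5 := by
    have h1 : Z.card ≤ ((Fintype.piFinset T) ×ˢ G).card := Finset.card_image_le
    have h2 : (((Fintype.piFinset T) ×ˢ G).card : ℝ) = (∏ i, (N i : ℝ)) * G.card := by
      rw [Finset.card_product, Fintype.card_piFinset]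
      push_cast
      simp only [hTcard]
    have h3 : (G.card : ℝ) ≤ ∏ i ∈ act, (Real.exp 1 * ((N i : ℝ) + 2)) := lattice_count act N
    have h4 : ∏ i ∈ act, (Real.exp 1 * ((N i : ℝ) + 2)) ≤ ∏ i ∈ act, (N i : ℝ) ^ 4 := by
      apply Finset.prod_le_prod
      · intro i _
        exact mul_nonneg (Real.exp_pos 1).le
          (add_nonneg (Nat.cast_nonneg (N i)) (by norm_num))
      · intro i hi
        exact exp_mul_le (N i) (Finset.mem_filter.mp hi).2
    have h5 : ∏ i ∈ act, (N i : ℝ) ^ 4 ≤ ∏ i, (N i : ℝ) ^ 4 := by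
      apply Finset.prod_le_prod_of_subset_of_one_le (Finset.subset_univ act)
      · intro i _
        exact pow_nonneg (Nat.cast_nonneg (N i)) 4
      · intro i _ _
        exact one_le_pow₀ (by exact_mod_cast hNpos i)
    have h6 : (0:ℝ) ≤ ∏ i, (N i : ℝ) := Finset.prod_nonneg (fun i _ => Nat.cast_nonneg _)
    calc (Z.card : ℝ) ≤ (((Fintype.piFinset T) ×ˢ G).card : ℝ) := by exact_mod_cast h1
      _ = (∏ i, (N i : ℝ)) * G.card := h2
      _ ≤ (∏ i, (N i : ℝ)) * ∏ i, (N i : ℝ) ^ 4 :=
          mul_le_mul_of_nonneg_left (h3.trans (h4.trans h5)) h6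
      _ = ∏ i, (N i : ℝ) ^ 5 := by
          rw [← Finset.prod_mul_distrib]
          apply Finset.prod_congr rfl
          intro i _
          ring
  calc (covNum (polarSet (prodBody L)) ((2 * s) • polarSet (prodBody K)) : ℝ) ≤ Z.card := by
        exact_mod_cast covNum_le hcover
    _ ≤ _ := hcard

end left

end Vale.Agent.Lib.P126
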