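import Vale.Agent.Lib.P126.Right
import Vale.Agent.Lib.P126.Left

namespace Vale.Agent.Lib.P126

open scoped Pointwise Topology

section main

variable {ι : Type*} [Fintype ι] {E : ι → Type*} [∀ i, NormedAddCommGroup (E i)]
  [∀ i, InnerProductSpace ℝ (E i)] [∀ i, FiniteDimensional ℝ (E i)]

omit [∀ i, FiniteDimensional ℝ (E i)] in
theorem covNum_prod_le (K L : ∀ i, Set (E i)) (hK : ∀ i, IsSymmBody (K i))
    (hL : ∀ i, IsSymmBody (L i)) :
    covNum (prodBody K) (prodBody L) ≤ ∏ i, covNum (K i) (L i) := by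
  classical
  have hT : ∀ i, ∃ T : Finset (E i), T.card = covNum (K i) (L i) ∧
      ∀ y ∈ K i, ∃ x ∈ T, y - x ∈ L i :=
    fun i => exists_cover_card_eq (exists_cover (hK i).1 (hL i).mem_nhds)
  choose T hTcard hTcov using hT
  have hcov : ∀ y ∈ prodBody K, ∃ x ∈ (Fintype.piFinset T).image
      (WithLp.toLp 2 : (∀ i, E i) → PiLp 2 E), y - x ∈ prodBody L := by
    intro y hy
    have h1 : ∀ i, ∃ x ∈ T i, y i - x ∈ L i := fun i => hTcov i (y i) (hy i)
    choose x hxT hxy using h1
    exact ⟨WithLp.toLp 2 x, Finset.mem_image_of_mem _ (Fintype.mem_piFinset.mpr hxT),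
      fun i => hxy i⟩
  calc covNum (prodBody K) (prodBody L)
      ≤ ((Fintype.piFinset T).image (WithLp.toLp 2 : (∀ i, E i) → PiLp 2 E)).card :=
        covNum_le hcov
    _ ≤ (Fintype.piFinset T).card := Finset.card_image_le
    _ = ∏ i, covNum (K i) (L i) := by
        rw [Fintype.card_piFinset]
        simp only [hTcard]

omit [∀ i, FiniteDimensional ℝ (E i)] in
theorem prod_covNum_two_le (K L : ∀ i, Set (E i)) (hK : ∀ i, IsSymmBody (K i))
    (hL : ∀ i, IsSymmBody (L i)) :
    ∏ i, covNum (K i) ((2:ℝ) • L i) ≤ covNum (prodBody K) (prodBody L) := by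
  classical
  have hS : ∀ i, ∃ S : Finset (E i), S.card = covNum (K i) ((2:ℝ) • L i) ∧
      (∀ x ∈ S, x ∈ K i) ∧ ∀ x ∈ S, ∀ y ∈ S, x ≠ y → x - y ∉ (2:ℝ) • L i := fun i =>
    exists_separated (Set.mem_smul_set.mpr ⟨0, (hL i).zero_mem, smul_zero _⟩)
      (fun x hx => by
        obtain ⟨z, hz, hzx⟩ := Set.mem_smul_set.mp hx
        exact Set.mem_smul_set.mpr ⟨-z, (hL i).2.2.2 z hz, by rw [smul_neg, hzx]⟩) _ le_rfl
  choose S hScard hSmem hSsep using hS
  set P : Finset (PiLp 2 E) := (Fintype.piFinset S).image (WithLp.toLp 2) with hP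
  have hPcard : P.card = ∏ i, covNum (K i) ((2:ℝ) • L i) := by
    rw [hP, Finset.card_image_of_injective _ (WithLp.toLp_injective 2), Fintype.card_piFinset]
    simp only [hScard]
  rw [← hPcard]
  apply card_le_covNum_of_separated (A := prodBody K) (B := prodBody L)
    (D := prodBody (fun i => (2:ℝ) • L i))
  · intro x hx y hy i
    refine Set.mem_smul_set.mpr ⟨(1/2:ℝ) • x i + (1/2:ℝ) • (-(y i)),
      (hL i).2.1 (hx i) ((hL i).2.2.2 _ (hy i)) (by norm_num) (by norm_num) (by norm_num), ?_⟩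
    show (2:ℝ) • ((1/2:ℝ) • x i + (1/2:ℝ) • (-(y i))) = x i - y i
    rw [smul_add, smul_smul, smul_smul]
    norm_num
    abel
  · intro x hx
    obtain ⟨c, hc, rfl⟩ := Finset.mem_image.mp hx
    exact fun i => hSmem i (c i) (Fintype.mem_piFinset.mp hc i)
  · intro x hx y hy hxy hmem
    obtain ⟨c, hc, rfl⟩ := Finset.mem_image.mp hx
    obtain ⟨c', hc', rfl⟩ := Finset.mem_image.mp hy
    have hne : c ≠ c' := fun h => hxy (by rw [h])
    obtain ⟨i, hi⟩ := Function.ne_iff.mp hne
    exact hSsep i (c i) (Fintype.mem_piFinset.mp hc i) (c' i) (Fintype.mem_piFinset.mp hc' i) hi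
      (hmem i)
  · exact exists_cover (prodBody_isSymmBody hK).1 (prodBody_isSymmBody hL).mem_nhds

lemma covNum_polar_pos {F : Type*} [NormedAddCommGroup F] [InnerProductSpace ℝ F]
    [FiniteDimensional ℝ F] {K L : Set F} (hK : IsSymmBody K) (hL : IsSymmBody L) {s : ℝ}
    (hs : 0 < s) : 1 ≤ covNum (polarSet L) (s • polarSet K) :=
  covNum_pos ⟨0, zero_mem_polarSet _⟩ (exists_cover (isCompact_polarSet hL.mem_nhds)
    (smul_polarSet_mem_nhds hK.1.isBounded hs))

lemma covNum_body_pos {F : Type*} [NormedAddCommGroup F] [InnerProductSpace ℝ F]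
    {K L : Set F} (hK : IsSymmBody K) (hL : L ∈ 𝓝 (0 : F)) : 1 ≤ covNum K L :=
  covNum_pos ⟨0, hK.zero_mem⟩ (exists_cover hK.1 hL)

/-- Right inequality for products. -/
theorem right_ineq (K L : ∀ i, Set (E i)) (hK : ∀ i, IsSymmBody (K i))
    (hL : ∀ i, IsSymmBody (L i)) (a b : ℝ) (ha : 0 < a) (hb : 0 < b)
    (hdual : ∀ i, Real.log (covNum (K i) (L i))
      ≤ b * Real.log (covNum (polarSet (L i)) (a⁻¹ • polarSet (K i)))) :
    Real.log (covNum (prodBody K) (prodBody L))
      ≤ (4 * b) * Real.log (covNum (polarSet (prodBody L))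
        ((16 * a)⁻¹ • polarSet (prodBody K))) := by
  have h1 : (covNum (prodBody K) (prodBody L) : ℝ) ≤ ∏ i, (covNum (K i) (L i) : ℝ) := by
    exact_mod_cast covNum_prod_le K L hK hL
  have hpos1 : 1 ≤ covNum (prodBody K) (prodBody L) :=
    covNum_body_pos (prodBody_isSymmBody hK) (prodBody_isSymmBody hL).mem_nhds
  have hposi : ∀ i, 1 ≤ covNum (K i) (L i) := fun i => covNum_body_pos (hK i) (hL i).mem_nhds
  have hNi : ∀ i, 1 ≤ covNum (polarSet (L i)) (a⁻¹ • polarSet (K i)) := fun i =>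
    covNum_polar_pos (hK i) (hL i) (inv_pos.mpr ha)
  have hprodpos : (0:ℝ) < ∏ i, (covNum (polarSet (L i)) (a⁻¹ • polarSet (K i)) : ℝ) :=
    Finset.prod_pos (fun i _ => by exact_mod_cast hNi i)
  calc Real.log (covNum (prodBody K) (prodBody L))
      ≤ Real.log (∏ i, (covNum (K i) (L i) : ℝ)) :=
        Real.log_le_log (by exact_mod_cast hpos1) h1
    _ = ∑ i, Real.log (covNum (K i) (L i)) :=
        Real.log_prod (fun i _ => by
          have := hposi i
          positivity)
    _ ≤ ∑ i, b * Real.log (covNum (polarSet (L i)) (a⁻¹ • polarSet (K i))) :=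
        Finset.sum_le_sum (fun i _ => hdual i)
    _ = b * Real.log (∏ i, (covNum (polarSet (L i)) (a⁻¹ • polarSet (K i)) : ℝ)) := by
        rw [← Finset.mul_sum, Real.log_prod (fun i _ => by
          have := hNi i
          positivity)]
    _ ≤ b * Real.log ((covNum (polarSet (prodBody L))
          ((16 * a)⁻¹ • polarSet (prodBody K)) : ℝ) ^ 4) :=
        mul_le_mul_of_nonneg_left (Real.log_le_log hprodpos
          (prod_covNum_polar_le K L hK hL a ha)) hb.le
    _ = (4 * b) * Real.log (covNum (polarSet (prodBody L))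
          ((16 * a)⁻¹ • polarSet (prodBody K))) := by
        rw [Real.log_pow]
        push_cast
        ring

/-- Left inequality for products. -/
theorem left_ineq (K L : ∀ i, Set (E i)) (hK : ∀ i, IsSymmBody (K i))
    (hL : ∀ i, IsSymmBody (L i)) (a b : ℝ) (ha : 0 < a) (hb : 0 < b)
    (hdual : ∀ i, (1 / b) * Real.log (covNum (polarSet ((2:ℝ) • L i)) (a • polarSet (K i)))
      ≤ Real.log (covNum (K i) ((2:ℝ) • L i))) :
    (1 / (5 * b)) * Real.log (covNum (polarSet (prodBody L))
        ((4 * a) • polarSet (prodBody K)))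
      ≤ Real.log (covNum (prodBody K) (prodBody L)) := by
  have h2L : ∀ i, (2:ℝ) • L i ∈ 𝓝 (0 : E i) := fun i =>
    (set_smul_mem_nhds_zero_iff (two_ne_zero)).mpr (hL i).mem_nhds
  have hscale : ∀ i, covNum (polarSet ((2:ℝ) • L i)) (a • polarSet (K i))
      = covNum (polarSet (L i)) ((2 * a) • polarSet (K i)) := by
    intro i
    rw [polarSet_smul _ (by norm_num : (0:ℝ) < 2)]
    have e : a • polarSet (K i) = (2:ℝ)⁻¹ • ((2 * a) • polarSet (K i)) := by
      rw [smul_smul]
      congr 1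
      ring
    rw [e, covNum_smul _ _ (by norm_num : (2:ℝ)⁻¹ ≠ 0)]
  have hNi : ∀ i, 1 ≤ covNum (polarSet (L i)) ((2 * a) • polarSet (K i)) := fun i =>
    covNum_polar_pos (hK i) (hL i) (by positivity)
  have hMi : ∀ i, 1 ≤ covNum (K i) ((2:ℝ) • L i) := fun i => covNum_body_pos (hK i) (h2L i)
  have hD : 1 ≤ covNum (polarSet (prodBody L)) ((4 * a) • polarSet (prodBody K)) :=
    covNum_polar_pos (prodBody_isSymmBody hK) (prodBody_isSymmBody hL) (by positivity)
  have h5b : (0:ℝ) ≤ 1 / (5 * b) := by positivity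
  have hup := covNum_polar_prod_le K L hK hL (2 * a) (by positivity)
  rw [show 2 * (2 * a) = 4 * a by ring] at hup
  calc (1 / (5 * b)) * Real.log (covNum (polarSet (prodBody L))
        ((4 * a) • polarSet (prodBody K)))
      ≤ (1 / (5 * b)) * Real.log (∏ i,
          (covNum (polarSet (L i)) ((2 * a) • polarSet (K i)) : ℝ) ^ 5) :=
        mul_le_mul_of_nonneg_left (Real.log_le_log (by exact_mod_cast hD) hup) h5b
    _ = ∑ i, (1 / b) * Real.log (covNum (polarSet ((2:ℝ) • L i)) (a • polarSet (K i))) := by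
        rw [Real.log_prod (fun i _ => by
          have := hNi i
          positivity), Finset.mul_sum]
        apply Finset.sum_congr rfl
        intro i _
        rw [Real.log_pow, hscale i]
        push_cast
        field_simp
    _ ≤ ∑ i, Real.log (covNum (K i) ((2:ℝ) • L i)) := Finset.sum_le_sum (fun i _ => hdual i)
    _ = Real.log (∏ i, (covNum (K i) ((2:ℝ) • L i) : ℝ)) :=
        (Real.log_prod (fun i _ => by
          have := hMi i
          positivity)).symm
    _ ≤ Real.log (covNum (prodBody K) (prodBody L)) :=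
        Real.log_le_log (Finset.prod_pos (fun i _ => by exact_mod_cast hMi i))
          (by exact_mod_cast prod_covNum_two_le K L hK hL)

end main

end Vale.Agent.Lib.P126
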