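import Vale.Agent.Lib.P126.Basic

namespace Vale.Agent.Lib.P126

open scoped Pointwise Topology

section polar

variable {E : Type*} [NormedAddCommGroup E] [InnerProductSpace ℝ E]

lemma zero_mem_polarSet (K : Set E) : (0 : E) ∈ polarSet K := by
  intro x _
  simp

lemma mem_smul_polarSet {K : Set E} {s : ℝ} (hs : 0 < s) {y : E} :
    y ∈ s • polarSet K ↔ ∀ x ∈ K, inner ℝ x y ≤ s := by
  constructor
  · rintro ⟨z, hz, rfl⟩ x hx
    have h1 := hz x hx
    rw [inner_smul_right]
    nlinarith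
  · intro h
    refine ⟨s⁻¹ • y, ?_, ?_⟩
    · intro x hx
      rw [inner_smul_right]
      have h1 := h x hx
      rw [inv_mul_le_iff₀ hs]
      linarith
    · simp [smul_smul, hs.ne']

lemma zero_mem_smul_polarSet (K : Set E) {s : ℝ} (hs : 0 < s) : (0 : E) ∈ s • polarSet K := by
  rw [mem_smul_polarSet hs]
  intro x _
  simp [hs.le]

lemma polarSet_smul (L : Set E) {t : ℝ} (ht : 0 < t) : polarSet (t • L) = t⁻¹ • polarSet L := by
  ext y
  rw [mem_smul_polarSet (inv_pos.mpr ht)]
  constructor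
  · intro h x hx
    have h1 := h (t • x) (Set.smul_mem_smul_set hx)
    rw [inner_smul_left] at h1
    simp only [conj_trivial] at h1
    rw [inv_eq_one_div, le_div_iff₀ ht]
    linarith
  · rintro h _ ⟨x, hx, rfl⟩
    have h1 := h x hx
    rw [inner_smul_left]
    simp only [conj_trivial]
    have h2 := mul_le_mul_of_nonneg_left h1 ht.le
    rwa [mul_inv_cancel₀ ht.ne'] at h2

lemma neg_mem_smul_polarSet {K : Set E} (hK : ∀ x ∈ K, -x ∈ K) {s : ℝ} (hs : 0 < s) {y : E}
    (hy : y ∈ s • polarSet K) : -y ∈ s • polarSet K := by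
  rw [mem_smul_polarSet hs] at hy ⊢
  intro x hx
  have := hy (-x) (hK x hx)
  simpa using this

lemma sub_mem_smul_polarSet {K : Set E} (hK : ∀ x ∈ K, -x ∈ K) {s : ℝ} (hs : 0 < s) {y z : E}
    (hy : y ∈ s • polarSet K) (hz : z ∈ s • polarSet K) : y - z ∈ (2 * s) • polarSet K := by
  rw [mem_smul_polarSet hs] at hy hz
  rw [mem_smul_polarSet (by positivity)]
  intro x hx
  have h1 := hy x hx
  have h2 := hz (-x) (hK x hx)
  rw [inner_sub_right]
  rw [inner_neg_left] at h2
  linarith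

lemma IsSymmBody.zero_mem_interior {K : Set E} (hK : IsSymmBody K) : (0 : E) ∈ interior K := by
  obtain ⟨_, hconv, ⟨x, hx⟩, hsym⟩ := hK
  have hneg : -x ∈ interior K := by
    have h1 : -x ∈ (Homeomorph.neg E) '' interior K := ⟨x, hx, rfl⟩
    rw [(Homeomorph.neg E).image_interior] at h1
    have h2 : (Homeomorph.neg E) '' K = K := by
      ext y
      constructor
      · rintro ⟨z, hz, rfl⟩
        exact hsym z hz
      · intro hy
        exact ⟨-y, hsym y hy, by simp⟩
    rwa [h2] at h1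
  have h0 := hconv.interior hx hneg (by norm_num : (0:ℝ) ≤ 1/2) (by norm_num : (0:ℝ) ≤ 1/2)
    (by norm_num)
  simpa using h0

lemma IsSymmBody.mem_nhds {K : Set E} (hK : IsSymmBody K) : K ∈ 𝓝 (0 : E) :=
  mem_interior_iff_mem_nhds.mp hK.zero_mem_interior

lemma IsSymmBody.zero_mem {K : Set E} (hK : IsSymmBody K) : (0 : E) ∈ K :=
  interior_subset hK.zero_mem_interior

lemma isClosed_polarSet (K : Set E) : IsClosed (polarSet K) := by
  have : polarSet K = ⋂ x ∈ K, {y : E | inner ℝ x y ≤ 1} := by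
    ext y
    simp [polarSet]
  rw [this]
  exact isClosed_biInter (fun x _ => isClosed_le (continuous_const.inner continuous_id)
    continuous_const)

lemma isBounded_polarSet {K : Set E} (hK : K ∈ 𝓝 (0 : E)) : Bornology.IsBounded (polarSet K) := by
  obtain ⟨r, hr, hball⟩ := Metric.mem_nhds_iff.mp hK
  rw [Metric.isBounded_iff_subset_closedBall (0 : E)]
  refine ⟨2 / r, ?_⟩
  intro y hy
  rw [mem_closedBall_zero_iff]
  by_cases hy0 : y = 0
  · rw [hy0, norm_zero]
    positivity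
  · have hny : 0 < ‖y‖ := norm_pos_iff.mpr hy0
    have hx : (r / 2 / ‖y‖) • y ∈ K := by
      apply hball
      rw [mem_ball_zero_iff, norm_smul, Real.norm_of_nonneg (by positivity)]
      rw [div_mul_cancel₀ _ hny.ne']
      linarith
    have h1 := hy _ hx
    rw [inner_smul_left, real_inner_self_eq_norm_sq] at h1
    simp only [conj_trivial] at h1
    have h2 : r / 2 / ‖y‖ * ‖y‖ ^ 2 = r / 2 * ‖y‖ := by
      field_simp
    rw [h2] at h1
    rw [le_div_iff₀ hr]
    linarith

lemma isCompact_polarSet [ProperSpace E] {K : Set E} (hK : K ∈ 𝓝 (0 : E)) :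
    IsCompact (polarSet K) :=
  Metric.isCompact_of_isClosed_isBounded (isClosed_polarSet K) (isBounded_polarSet hK)

lemma smul_polarSet_mem_nhds {K : Set E} (hK : Bornology.IsBounded K) {s : ℝ} (hs : 0 < s) :
    s • polarSet K ∈ 𝓝 (0 : E) := by
  obtain ⟨R, hR⟩ := (Metric.isBounded_iff_subset_closedBall (0 : E)).mp hK
  have hR' : ∀ x ∈ K, ‖x‖ ≤ max R 1 := fun x hx =>
    le_trans (mem_closedBall_zero_iff.mp (hR hx)) (le_max_left _ _)
  have hRpos : 0 < max R 1 := lt_of_lt_of_le one_pos (le_max_right _ _)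
  rw [Metric.mem_nhds_iff]
  refine ⟨s / max R 1, by positivity, ?_⟩
  intro y hy
  rw [mem_ball_zero_iff] at hy
  rw [mem_smul_polarSet hs]
  intro x hx
  calc inner ℝ x y ≤ ‖x‖ * ‖y‖ := real_inner_le_norm x y
    _ ≤ max R 1 * (s / max R 1) := by
        apply mul_le_mul (hR' x hx) hy.le (norm_nonneg _) hRpos.le
    _ = s := by field_simp

lemma exists_cover {A B : Set E} (hA : IsCompact A) (hB : B ∈ 𝓝 (0 : E)) :
    ∃ T : Finset E, ∀ y ∈ A, ∃ x ∈ T, y - x ∈ B := by
  obtain ⟨T, _, hcov⟩ := hA.elim_nhds_subcover (fun x => {y | y - x ∈ B}) (fun x _ => by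
    have h1 : Filter.Tendsto (fun y : E => y - x) (𝓝 x) (𝓝 0) :=
      (by fun_prop : Continuous (fun y : E => y - x)).tendsto' x 0 (sub_self x)
    exact h1 hB)
  refine ⟨T, fun y hy => ?_⟩
  have h3 := hcov hy
  simp only [Set.mem_iUnion] at h3
  obtain ⟨x, hx, hxy⟩ := h3
  exact ⟨x, hx, hxy⟩

end polar

end Vale.Agent.Lib.P126
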