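import Vale.Agent.Lib.P126.Polar
import Vale.Agent.Lib.P126.Code

namespace Vale.Agent.Lib.P126

open scoped Pointwise Topology

section product

variable {ι : Type*} [Fintype ι] {E : ι → Type*} [∀ i, NormedAddCommGroup (E i)]
  [∀ i, InnerProductSpace ℝ (E i)]

lemma prodBody_isSymmBody {K : ∀ i, Set (E i)} (hK : ∀ i, IsSymmBody (K i)) :
    IsSymmBody (prodBody K) := by
  refine ⟨?_, ?_, ⟨0, ?_⟩, ?_⟩
  · have h1 : prodBody K = WithLp.toLp 2 '' (Set.pi Set.univ K) := by
      ext x
      constructor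
      · intro hx
        exact ⟨WithLp.ofLp x, fun i _ => hx i, rfl⟩
      · rintro ⟨z, hz, rfl⟩ i
        exact hz i (Set.mem_univ i)
    rw [h1]
    exact (isCompact_univ_pi (fun i => (hK i).1)).image (PiLp.continuous_toLp 2 E)
  · intro x hx y hy a b ha hb hab i
    exact (hK i).2.1 (hx i) (hy i) ha hb hab
  · rw [mem_interior_iff_mem_nhds]
    have h1 : prodBody K = ⋂ i, (fun x : PiLp 2 E => x i) ⁻¹' (K i) := by
      ext x
      simp [prodBody]
    rw [h1]
    refine Filter.iInter_mem.mpr (fun i => ?_)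
    apply (PiLp.continuous_apply 2 E i).continuousAt.preimage_mem_nhds
    exact (hK i).mem_nhds
  · intro x hx i
    exact (hK i).2.2.2 (x i) (hx i)

lemma smul_prodBody (L : ∀ i, Set (E i)) {t : ℝ} (ht : 0 < t) :
    t • prodBody L = prodBody (fun i => t • L i) := by
  ext x
  rw [Set.mem_smul_set_iff_inv_smul_mem₀ ht.ne']
  constructor
  · intro h i
    rw [Set.mem_smul_set_iff_inv_smul_mem₀ ht.ne']
    exact h i
  · intro h i
    have := h i
    rw [Set.mem_smul_set_iff_inv_smul_mem₀ ht.ne'] at this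
    exact this

end product

end Vale.Agent.Lib.P126
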