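import Vale.Agent.Lib.P126.Product

namespace Vale.Agent.Lib.P126

open scoped Pointwise Topology

section right

variable {ι : Type*} [Fintype ι] {E : ι → Type*} [∀ i, NormedAddCommGroup (E i)]
  [∀ i, InnerProductSpace ℝ (E i)] [∀ i, FiniteDimensional ℝ (E i)]

lemma exists_cover_polar_prod {K L : ∀ i, Set (E i)} (hK : ∀ i, IsSymmBody (K i))
    (hL : ∀ i, IsSymmBody (L i)) {s : ℝ} (hs : 0 < s) :
    ∃ T : Finset (PiLp 2 E), ∀ y ∈ polarSet (prodBody L), ∃ x ∈ T,
      y - x ∈ s • polarSet (prodBody K) :=
  exists_cover (isCompact_polarSet (prodBody_isSymmBody hL).mem_nhds)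
    (smul_polarSet_mem_nhds (prodBody_isSymmBody hK).1.isBounded hs)

/-- Lower tensorization: the product of the dual covering numbers of the factors is at most the
fourth power of the dual covering number of the product (at a scale 16 times smaller). -/
theorem prod_covNum_polar_le (K L : ∀ i, Set (E i)) (hK : ∀ i, IsSymmBody (K i))
    (hL : ∀ i, IsSymmBody (L i)) (a : ℝ) (ha : 0 < a) :
    ∏ i, (covNum (polarSet (L i)) (a⁻¹ • polarSet (K i)) : ℝ)
      ≤ (covNum (polarSet (prodBody L)) ((16 * a)⁻¹ • polarSet (prodBody K)) : ℝ) ^ 4 := by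
  classical
  set N : ι → ℕ := fun i => covNum (polarSet (L i)) (a⁻¹ • polarSet (K i)) with hN
  have hcovex := exists_cover_polar_prod hK hL (s := (16 * a)⁻¹) (by positivity)
  have hNfin : 1 ≤ covNum (polarSet (prodBody L)) ((16 * a)⁻¹ • polarSet (prodBody K)) :=
    covNum_pos ⟨0, zero_mem_polarSet _⟩ hcovex
  have hsep : ∀ i, ∃ S : Finset (E i), S.card = N i ∧ (∀ x ∈ S, x ∈ polarSet (L i)) ∧
      ∀ x ∈ S, ∀ y ∈ S, x ≠ y → x - y ∉ a⁻¹ • polarSet (K i) := fun i =>
    exists_separated (zero_mem_smul_polarSet _ (inv_pos.mpr ha))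
      (fun x hx => neg_mem_smul_polarSet (hK i).2.2.2 (inv_pos.mpr ha) hx) (N i) le_rfl
  choose S hScard hSmem hSsep using hsep
  by_cases hzero : ∃ i, N i = 0
  · obtain ⟨i, hi⟩ := hzero
    have h0 : ∏ i, (N i : ℝ) = 0 := Finset.prod_eq_zero (Finset.mem_univ i) (by simp [hi])
    rw [h0]
    positivity
  · push Not at hzero
    have hSne : ∀ i, (S i).Nonempty := fun i =>
      Finset.card_pos.mp (by rw [hScard]; exact Nat.pos_of_ne_zero (hzero i))
    obtain ⟨C, hCsub, hCcard, hCsep⟩ := exists_code S hSne
    simp only [hScard] at hCcard hCsep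
    set Λ : ℝ := ∑ i, Real.log (N i) with hΛdef
    have hΛnn : 0 ≤ Λ := Finset.sum_nonneg (fun i _ => Real.log_natCast_nonneg _)
    by_cases hΛ : Λ = 0
    · have hprod : ∏ i, (N i : ℝ) = 1 := by
        have h1 : ∏ i, (N i : ℝ) = Real.exp Λ := by
          rw [hΛdef, Real.exp_sum]
          apply Finset.prod_congr rfl
          intro i _
          rw [Real.exp_log]
          exact_mod_cast Nat.pos_of_ne_zero (hzero i)
        rw [h1, hΛ, Real.exp_zero]
      rw [hprod]
      exact one_le_pow₀ (by exact_mod_cast hNfin)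
    · have hΛpos : 0 < Λ := lt_of_le_of_ne hΛnn (Ne.symm hΛ)
      set lam : ι → ℝ := fun i => Real.log (N i) / Λ with hlam
      have hlam0 : ∀ i, 0 ≤ lam i := fun i =>
        div_nonneg (Real.log_natCast_nonneg _) hΛpos.le
      have hlam1 : ∑ i, lam i = 1 := by
        rw [hlam, ← Finset.sum_div, div_self hΛpos.ne']
      let p : (∀ i, E i) → PiLp 2 E := fun c => WithLp.toLp 2 (fun i => lam i • c i)
      have hp_mem : ∀ c ∈ C, p c ∈ polarSet (prodBody L) := by
        intro c hc x hx
        rw [PiLp.inner_apply]
        calc ∑ i, inner ℝ (x i) (p c i) = ∑ i, lam i * inner ℝ (x i) (c i) := by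
              apply Finset.sum_congr rfl
              intro i _
              simp [p, inner_smul_right]
          _ ≤ ∑ i, lam i * 1 := by
              apply Finset.sum_le_sum
              intro i _
              apply mul_le_mul_of_nonneg_left _ (hlam0 i)
              exact hSmem i (c i) (Fintype.mem_piFinset.mp (hCsub hc) i) (x i) (hx i)
          _ = 1 := by simp [hlam1]
      have hp_sep : ∀ c ∈ C, ∀ c' ∈ C, c ≠ c' →
          p c - p c' ∉ (8 * a)⁻¹ • polarSet (prodBody K) := by
        intro c hc c' hc' hne hmem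
        rw [mem_smul_polarSet (by positivity)] at hmem
        have hk : ∀ i, ∃ k ∈ K i, c i ≠ c' i → a⁻¹ < inner ℝ k (c i - c' i) := by
          intro i
          by_cases hi : c i = c' i
          · exact ⟨0, (hK i).zero_mem, fun h => absurd hi h⟩
          · have h1 := hSsep i (c i) (Fintype.mem_piFinset.mp (hCsub hc) i) (c' i)
              (Fintype.mem_piFinset.mp (hCsub hc') i) hi
            rw [mem_smul_polarSet (inv_pos.mpr ha)] at h1
            push Not at h1
            obtain ⟨k, hk, hlt⟩ := h1
            exact ⟨k, hk, fun _ => hlt⟩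
        choose k hkK hklt using hk
        have hx : (WithLp.toLp 2 k : PiLp 2 E) ∈ prodBody K := fun i => hkK i
        have h1 := hmem _ hx
        rw [PiLp.inner_apply] at h1
        have h2 : ∑ i, inner ℝ ((WithLp.toLp 2 k : PiLp 2 E) i) ((p c - p c') i)
            = ∑ i, lam i * inner ℝ (k i) (c i - c' i) := by
          apply Finset.sum_congr rfl
          intro i _
          simp [p, ← smul_sub, inner_smul_right]
        have h3 : (∑ i ∈ diffSet c c', lam i) * a⁻¹ ≤ ∑ i, lam i * inner ℝ (k i) (c i - c' i) := by
          rw [Finset.sum_mul]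
          unfold diffSet
          rw [Finset.sum_filter]
          apply Finset.sum_le_sum
          intro i _
          split_ifs with h
          · exact mul_le_mul_of_nonneg_left (hklt i h).le (hlam0 i)
          · push Not at h
            rw [h, sub_self, inner_zero_right, mul_zero]
        have h4 : 1 / 8 < ∑ i ∈ diffSet c c', lam i := by
          have h5 := hCsep c hc c' hc' hne
          rw [hlam, ← Finset.sum_div, lt_div_iff₀ hΛpos]
          linarith
        have h6 : (8 * a)⁻¹ = 1 / 8 * a⁻¹ := by
          field_simp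
        have h7 : 1 / 8 * a⁻¹ < (∑ i ∈ diffSet c c', lam i) * a⁻¹ :=
          mul_lt_mul_of_pos_right h4 (inv_pos.mpr ha)
        rw [h2] at h1
        linarith
      have hinj : Set.InjOn p C := by
        intro c hc c' hc' h
        by_contra hne
        apply hp_sep c hc c' hc' hne
        rw [h, sub_self]
        exact zero_mem_smul_polarSet _ (by positivity)
      have hcard : C.card ≤ covNum (polarSet (prodBody L))
          ((16 * a)⁻¹ • polarSet (prodBody K)) := by
        have h1 := card_le_covNum_of_separated (A := polarSet (prodBody L))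
          (B := (16 * a)⁻¹ • polarSet (prodBody K)) (D := (8 * a)⁻¹ • polarSet (prodBody K))
          (S := C.image p) ?_ ?_ ?_ hcovex
        · rwa [Finset.card_image_of_injOn hinj] at h1
        · intro x hx y hy
          have h2 := sub_mem_smul_polarSet (prodBody_isSymmBody hK).2.2.2
            (by positivity : (0:ℝ) < (16 * a)⁻¹) hx hy
          have h3 : 2 * (16 * a)⁻¹ = (8 * a)⁻¹ := by
            field_simp
            norm_num
          rwa [h3] at h2
        · intro x hx
          obtain ⟨c, hc, rfl⟩ := Finset.mem_image.mp hx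
          exact hp_mem c hc
        · intro x hx y hy hxy
          obtain ⟨c, hc, rfl⟩ := Finset.mem_image.mp hx
          obtain ⟨c', hc', rfl⟩ := Finset.mem_image.mp hy
          exact hp_sep c hc c' hc' (fun h => hxy (by rw [h]))
      calc ∏ i, (N i : ℝ) ≤ (C.card : ℝ) ^ 4 := hCcard
        _ ≤ _ := by
            gcongr

end right

end Vale.Agent.Lib.P126
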